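import Vale.Agent.P167.QB.FactC
import Vale.Agent.P167.H542.Q.FamB
import Vale.Agent.P167.H562.Q.MQ3
import Vale.Agent.P167.H192.Q.Arm3

/-!
# P167, general `q`, block Q-ND: multi-scale charges at a flat boundary point (definitions, statements)

`√q = 2 cos θ`, gauge 2. `b = q l` is a flat boundary point (half-plane above `b` in the window of radius `R`).
The rings `Zr b (a i) = hbox b (2 a i) \ hbox b (a i)`, `a 0 < a 1 < ...`, carry the bumps `f i` (mass one, in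
the core `Kr b (a i)` of the ring). The pieces which do not visit the rings see all or nothing of every bump;
the product `Wv` of their weights is the positive reference weight. The pieces which visit a ring are
small loops near the core, other small pieces (weight one) and pieces of macroscopic size (majorant).
-/

namespace Vale.Agent.P167.H436.ND

open Finset Vale.Agent.P167 Vale.Agent.P167.BR Vale.Agent.P167.FK
open Vale.Agent.P167.QX (wB XB lo hi)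
open Vale.Agent.P167.QB (gB XG Ard sgm sg dlt)
open Vale.Agent.P167.E6 (IsPolygon Encloses)
open Vale.Agent.P167.H542 (Geo)
open Vale.Agent.P167.H542.Q (Phs wR XR thB)
open Vale.Agent.P167.H562.QM (MajA)
open Vale.Agent.P167.H562.MAJ (Sm)
open Vale.Agent.P167.H562.SML (smf)
open Vale.Agent.P167.H718 (Dob)
open Vale.Agent.P167.H192.TA (Xc)

/-! ### rings -/

/-- The ring: the half annulus `(a, 2 a)` above `b`. -/
noncomputable def Zr (b : ℤ × ℤ) (a : ℤ) : Finset (ℤ × ℤ) := hbox b (2 * a) \ hbox b a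

/-- The left part of the ring (with the top up to `a / 2` on the right). -/
noncomputable def ZL (b : ℤ × ℤ) (a : ℤ) : Finset (ℤ × ℤ) := (Zr b a).filter fun v => 2 * (v.1 - b.1) < a

/-- The right part of the ring. -/
noncomputable def ZR (b : ℤ × ℤ) (a : ℤ) : Finset (ℤ × ℤ) := (Zr b a).filter fun v => -a ≤ 2 * (v.1 - b.1)

/-- The core of the ring (sites). -/
def Kr (b : ℤ × ℤ) (a : ℤ) : Set (ℤ × ℤ) :=
  {z | -a ≤ 4 * (z.1 - b.1) ∧ 4 * (z.1 - b.1) ≤ a ∧ 5 * a ≤ 4 * (z.2 - b.2) ∧ 4 * (z.2 - b.2) ≤ 7 * a}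

/-- The ratio of the cut-off of the small loops and the radius of the ring. -/
noncomputable def kp : ℝ := 1 / 400

/-- A bump of mass one in the core of the ring. -/
structure Bp (Cm : ℝ) (b : ℤ × ℤ) (a : ℤ) (f : ℤ × ℤ → ℝ) : Prop where
  nonneg : ∀ z, 0 ≤ f z
  le : ∀ z, f z ≤ Cm / a ^ 2
  supp : ∀ z, f z ≠ 0 → z ∈ Kr b a
  sum : ∑ᶠ z, f z = 1

/-- The charge `∑ τ i f i + E`. -/
noncomputable def Ft {m : ℕ} (τ : Fin m → ℝ) (f : Fin m → ℤ × ℤ → ℝ) (E : ℤ × ℤ → ℝ) (z : ℤ × ℤ) : ℝ :=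
  ∑ i, τ i * f i z + E z

/-- The scales: `a₀ ≤ a 0`, `K a i ≤ a j` for `i < j`, all rings in the window of radius `R`. -/
structure Scl (a₀ K R : ℤ) {m : ℕ} (a : Fin m → ℤ) : Prop where
  pos : ∀ i, a₀ ≤ a i
  step : ∀ i j, i < j → K * a i ≤ a j
  top : ∀ i, 8 * a i ≤ R

/-- Polygon with a flat window of radius `R` at `b = q l`, away from the base point. -/
structure Win {n : ℕ} (q : ZMod n → ℤ × ℤ) (D : Finset (ℤ × ℤ)) (l : ℕ) (R : ℤ) : Prop where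
  poly : IsPolygon q
  enc : Encloses q D
  flat : Flt D (q l) R
  l1 : l < n
  off : q 0 ∉ sites (hbox (q l) R)

open Classical in
/-- The product of the weights of the pieces which visit none of the zones. -/
noncomputable def Wv (θ : ℝ) {n m : ℕ} (q : ZMod n → ℤ × ℤ) (D : Finset (ℤ × ℤ)) (k : ℕ)
    (Z : Fin m → Finset (ℤ × ℤ)) (F : ℤ × ℤ → ℝ) (ω : Cfg) : ℝ :=
  ∏ A ∈ (pcs ω D).filter (fun A => ∀ i, ¬ Vz (Z i) A), wB θ (gB θ) q D k A (mass D (q 0) F A)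

/-! ### (PW) the pointwise bounds of the visiting pieces, law-free, any phases -/

/-- Zones with cores. -/
structure Rng (D : Finset (ℤ × ℤ)) (p : ℤ × ℤ) {m : ℕ} (Z : Fin m → Finset (ℤ × ℤ))
    (K : Fin m → Set (ℤ × ℤ)) (d : Fin m → ℝ) : Prop where
  pos : ∀ i, 1 ≤ d i
  sub : ∀ i, Z i ⊆ D
  geo : ∀ i, Geo D p (K i) (33 * d i)
  core : ∀ i, ∀ z ∈ K i, ∀ v : ℤ × ℤ, (nm (v - z) : ℝ) ≤ 33 * d i → v ∈ Z i
  wide : ∀ i, ∃ z ∈ K i, ∃ z' ∈ K i, 2 * d i ≤ (nm (z - z') : ℝ)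
  dis : ∀ i j, i ≠ j → ∀ v ∈ Z i, ∀ w ∈ Z j, 3 * d i + 3 < (nm (v - w) : ℝ)

open Classical in
/-- **(PW)** Bounds of the product over the pieces which visit the zones. Owner: helper542. -/
def S_PW : Prop := ∀ (θ c : ℝ) (D : Finset (ℤ × ℤ)) (th : Finset Ed → ℝ) (p : ℤ × ℤ),
  Phs θ c D th → ∀ (m : ℕ) (Z : Fin m → Finset (ℤ × ℤ)) (K : Fin m → Set (ℤ × ℤ)) (d : Fin m → ℝ),
  Rng D p Z K d → ∀ (f : Fin m → ℤ × ℤ → ℝ) (E : ℤ × ℤ → ℝ), (∀ i z, f i z ≠ 0 → z ∈ K i) →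
  ∀ ω : Cfg, (∀ i ℓ, IsLoop ω ℓ → Small (d i) ℓ → |G (f i) ℓ| ≤ 1 / 10) →
  (∀ A ∈ pcs ω D, (∃ i, Vz (Z i) A ∧ Small (d i) A) → mass D p E A = 0 ∧
    (¬ IsLp D A → mass D p (Ft (fun _ => 1) f E) A = 0)) →
  ∀ (N : Fin m → ℕ), (∀ i, MajA (Z i) (d i) ω (N i)) → ∀ M : ℝ, 1 ≤ M → c⁻¹ ≤ M →
  |∏ A ∈ (pcs ω D).filter (fun A => ∃ i, Vz (Z i) A),
      wR (th A) (mass D p (Ft (fun _ => 1) f E) A)| ≤
    ∏ i, M ^ (N i) * Real.exp (-(Real.tan θ * Sm (f i) (d i) ω)) ∧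
  ((∀ A ∈ pcs ω D, (∃ i, Vz (Z i) A ∧ ¬ Small (d i) A) →
      M⁻¹ ≤ wR (th A) (mass D p (Ft (fun _ => 1) f E) A)) →
    ∏ i, (M⁻¹ ^ (N i) * Real.exp (-(Real.tan θ * Sm (f i) (d i) ω) -
        30 * ∑ ℓ ∈ smf (Z i) (d i) ω, (G (f i) ℓ) ^ 2)) ≤
      ∏ A ∈ (pcs ω D).filter (fun A => ∃ i, Vz (Z i) A),
        wR (th A) (mass D p (Ft (fun _ => 1) f E) A))

/-! ### (CLS) the pieces which do not visit the rings -/

/-- The zone (half annulus) between the radii `ρ` and `σ`. -/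
noncomputable def Zg (b : ℤ × ℤ) (ρ σ : ℤ) : Finset (ℤ × ℤ) := hbox b σ \ hbox b ρ

/-- Nested zones in the window of radius `R`. -/
structure Zns (R : ℤ) {m : ℕ} (ρ σ : Fin m → ℤ) : Prop where
  pos : ∀ i, 2 ≤ ρ i
  wid : ∀ i, ρ i + 2 ≤ σ i
  step : ∀ i j, i < j → σ i + 2 ≤ ρ j
  top : ∀ i, σ i + 2 ≤ R

/-- **(CLS-a)** For every piece which does not visit the zones, the zones which it separates from the
base are the first `j` zones; if `0 < j` the strand goes from the left to the right of `b = q l`. -/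
def S_cls : Prop := ∀ (n : ℕ) (q : ZMod n → ℤ × ℤ) (D : Finset (ℤ × ℤ)) (l : ℕ) (R : ℤ), Win q D l R →
  ∀ (m : ℕ) (ρ σ : Fin m → ℤ), Zns R ρ σ → ∀ (ω : Cfg), ∀ A ∈ pcs ω D,
  (∀ i, ¬ Vz (Zg (q l) (ρ i) (σ i)) A) →
  ∃ j ≤ m, (∀ i : Fin m, (∀ z ∈ sites (Zg (q l) (ρ i) (σ i)), (Sep D A z (q 0) ↔ (i : ℕ) < j))) ∧
    (0 < j → lo q A < l ∧ l ≤ hi q A)

/-- **(CLS-b)** The small pieces which visit a ring: they do not surround `b`, and the strands have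
no mass. -/
def S_small : Prop := ∀ (n : ℕ) (q : ZMod n → ℤ × ℤ) (D : Finset (ℤ × ℤ)) (l : ℕ) (R : ℤ), Win q D l R →
  ∀ (m : ℕ) (a : Fin m → ℤ), Scl 4000 4 R a → ∀ (ω : Cfg), ∀ A ∈ pcs ω D,
  (∃ i, Vz (Zr (q l) (a i)) A ∧ Small (kp * a i) A) →
    ¬ Ard q l A ∧ (¬ IsLp D A → ∀ i, ∀ z ∈ Kr (q l) (a i), ¬ Sep D A z (q 0))

/-- **(CLS-c)** A piece which visits two zones gives a crossing of both colours of the half annulus
between two consecutive zones. -/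
def S_cross : Prop := ∀ (n : ℕ) (q : ZMod n → ℤ × ℤ) (D : Finset (ℤ × ℤ)) (l : ℕ) (R : ℤ), Win q D l R →
  ∀ (m : ℕ) (ρ σ : Fin m → ℤ), Zns R ρ σ → ∀ (ω : Cfg), ∀ A ∈ pcs ω D, ∀ i j : Fin m, (i : ℕ) + 1 = j →
  (∃ i' ≤ i, Vz (Zg (q l) (ρ i') (σ i')) A) → (∃ j' ≥ j, Vz (Zg (q l) (ρ j') (σ j')) A) →
  ∀ c : Bool, ω ∈ Xc c (q l) (σ i) (ρ j)

/-- **(CLS-d)** If one colour crosses the gap between two zones, then every piece which avoids the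
zones separates both or none of them. -/
def S_gap : Prop := ∀ (n : ℕ) (q : ZMod n → ℤ × ℤ) (D : Finset (ℤ × ℤ)) (l : ℕ) (R : ℤ), Win q D l R →
  ∀ (m : ℕ) (ρ σ : Fin m → ℤ), Zns R ρ σ → ∀ (ω : Cfg), ∀ A ∈ pcs ω D,
  (∀ i, ¬ Vz (Zg (q l) (ρ i) (σ i)) A) →
  ∀ i j : Fin m, (i : ℕ) + 1 = j → ∀ c : Bool, ω ∈ Xc c (q l) (σ i) (ρ j) →
  ∀ z ∈ sites (Zg (q l) (ρ i) (σ i)), ∀ w ∈ sites (Zg (q l) (ρ j) (σ j)),
    (Sep D A z (q 0) ↔ Sep D A w (q 0))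

/-- **(CLS-e)** A piece which avoids the zones and visits the gap `(i, i + 1)` separates none of the
zones, or it separates the zone `i` and not the zone `i + 1`. -/
def S_stay : Prop := ∀ (n : ℕ) (q : ZMod n → ℤ × ℤ) (D : Finset (ℤ × ℤ)) (l : ℕ) (R : ℤ), Win q D l R →
  ∀ (m : ℕ) (ρ σ : Fin m → ℤ), Zns R ρ σ → ∀ (ω : Cfg), ∀ A ∈ pcs ω D,
  (∀ i, ¬ Vz (Zg (q l) (ρ i) (σ i)) A) →
  ∀ i j : Fin m, (i : ℕ) + 1 = j → Vz (Zg (q l) (σ i) (ρ j)) A →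
    (∀ i', ∀ z ∈ sites (Zg (q l) (ρ i') (σ i')), ¬ Sep D A z (q 0)) ∨
    ((∀ z ∈ sites (Zg (q l) (ρ i) (σ i)), Sep D A z (q 0)) ∧
      ∀ z ∈ sites (Zg (q l) (ρ j) (σ j)), ¬ Sep D A z (q 0))

/-- **(CLS-f)** A strand from the left to the right of `b` which visits the zone between `ρ` and `σ` has
diameter at least `ρ - 2`. -/
def S_big : Prop := ∀ (n : ℕ) (q : ZMod n → ℤ × ℤ) (D : Finset (ℤ × ℤ)) (l : ℕ) (R : ℤ), Win q D l R →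
  ∀ (ρ σ : ℤ) (ω : Cfg), 2 ≤ ρ → ρ ≤ σ → 2 * σ + 2 ≤ R → ∀ A ∈ pcs ω D, lo q A < l → l ≤ hi q A →
  Vz (Zg (q l) ρ σ) A → ∃ e1 ∈ A, ∃ e2 ∈ A, ρ - 2 ≤ nm (hdv e1 - hdv e2)

/-- **(LOC)** The pieces which avoid a set of squares do not depend on the squares of the set. -/
def S_loc : Prop := ∀ (D Z : Finset (ℤ × ℤ)) (ω ω' : Cfg), Z ⊆ D → (∀ v, v ∉ Z → ω v = ω' v) →
  ∀ A ∈ pcs ω D, ¬ Vz Z A → A ∈ pcs ω' D

/-! ### the two finite-volume theorems -/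

/-- The outside configuration near a flat point: closed / open squares below the side. -/
structure FltO (D : Finset (ℤ × ℤ)) (η : Cfg) (b : ℤ × ℤ) (R : ℤ) (pl pr : Bool) : Prop where
  good : Good η
  out : ∀ v : ℤ × ℤ, b.1 - R ≤ v.1 → v.1 < b.1 + R → b.2 - R ≤ v.2 → v.2 < b.2 →
    η v = if v.1 < b.1 then pl else pr

/-- The total of the small-loop exponents. -/
noncomputable def Ex0 (θ : ℝ) (P : MeasureTheory.Measure Cfg) {m : ℕ} (τ : Fin m → ℝ) (a : Fin m → ℤ) : ℝ :=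
  Real.tan θ * ∑ i, τ i * H562.QM.NbP P (kp * a i)

/-- The charges of a multi-scale bump of total charge `t` at the rings `0, ..., J - 1` and of
total charge `- t` at the rings `J, ..., 2 J - 1`. -/
noncomputable def tau2 (J : ℕ) (t : ℝ) (i : Fin (2 * J)) : ℝ := if (i : ℕ) < J then t / J else -(t / J)

/-- **(JUN) = (Q4) at the junction.** The charge `t* = π - 2 θ` at the junction free | wired. Owner: helper436. -/
def S_jun (θ : ℝ) (P : MeasureTheory.Measure Cfg) : Prop :=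
  ∃ J0 : ℕ, 0 < J0 ∧ ∀ J : ℕ, J0 ≤ J → ∀ Cm : ℝ, 0 < Cm → ∃ K0 : ℤ, 4 ≤ K0 ∧ ∀ K : ℤ, K0 ≤ K →
  ∃ (c C : ℝ) (a₀ : ℤ), 0 < c ∧
  ∀ (n : ℕ) (q : ZMod n → ℤ × ℤ) (D : Finset (ℤ × ℤ)) (k : ℕ) (R : ℤ) (η : Cfg), Win q D k R → 0 < k →
  Dob η D q k → FltO D η (q k) R false true →
  ∀ a : Fin (2 * J) → ℤ, Scl a₀ K R a → (∀ i, K * a i ≤ R) →
    (∀ i j : Fin (2 * J), (i : ℕ) + 1 = j → (j : ℕ) ≠ J → a j ≤ 2 * K * a i) →
  ∀ f : Fin (2 * J) → ℤ × ℤ → ℝ, (∀ i, Bp Cm (q k) (a i) (f i)) →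
    c ≤ Ex (2 * Real.cos θ) D η (XG θ q D k (Ft (tau2 J (Real.pi - 2 * θ)) f 0)) *
      Real.exp (Ex0 θ P (tau2 J (Real.pi - 2 * θ)) a) ∧
    Ex (2 * Real.cos θ) D η (XG θ q D k (Ft (tau2 J (Real.pi - 2 * θ)) f 0)) *
      Real.exp (Ex0 θ P (tau2 J (Real.pi - 2 * θ)) a) ≤ C

/-- **(FRE) = (Q4c).** The charge `- θ` at a flat point `q l` of the free side. -/
def S_fre (θ : ℝ) (P : MeasureTheory.Measure Cfg) : Prop :=
  ∃ J0 : ℕ, 0 < J0 ∧ ∀ J : ℕ, J0 ≤ J → ∀ Cm : ℝ, 0 < Cm → ∃ K0 : ℤ, 4 ≤ K0 ∧ ∀ K : ℤ, K0 ≤ K →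
  ∃ (c C : ℝ) (a₀ : ℤ), 0 < c ∧
  ∀ (n : ℕ) (q : ZMod n → ℤ × ℤ) (D : Finset (ℤ × ℤ)) (k l : ℕ) (R : ℤ) (η : Cfg), Win q D l R →
  (l : ℤ) + R ≤ k → k ≤ n → Dob η D q k → FltO D η (q l) R false false →
  ∀ a : Fin (2 * J) → ℤ, Scl a₀ K R a → (∀ i, K * a i ≤ R) →
    (∀ i j : Fin (2 * J), (i : ℕ) + 1 = j → (j : ℕ) ≠ J → a j ≤ 2 * K * a i) →
  ∀ f : Fin (2 * J) → ℤ × ℤ → ℝ, (∀ i, Bp Cm (q l) (a i) (f i)) →
    c ≤ Ex (2 * Real.cos θ) D η (XG θ q D k (Ft (tau2 J (-θ)) f 0)) *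
      Real.exp (Ex0 θ P (tau2 J (-θ)) a) ∧
    Ex (2 * Real.cos θ) D η (XG θ q D k (Ft (tau2 J (-θ)) f 0)) *
      Real.exp (Ex0 θ P (tau2 J (-θ)) a) ≤ C

/-- **(PTP)** The multi-scale charge `θ` with the point charge `- θ` at a flat point `q l` of the free
side: positivity of `t` in (Q3) (after the change of the base). -/
def S_ptp (θ : ℝ) (P : MeasureTheory.Measure Cfg) : Prop :=
  ∃ J0 : ℕ, 0 < J0 ∧ ∀ J : ℕ, J0 ≤ J → ∀ Cm : ℝ, 0 < Cm → ∃ K0 : ℤ, 4 ≤ K0 ∧ ∀ K : ℤ, K0 ≤ K →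
  ∃ (c C : ℝ) (a₀ : ℤ), 0 < c ∧
  ∀ (n : ℕ) (q : ZMod n → ℤ × ℤ) (D : Finset (ℤ × ℤ)) (k l : ℕ) (R : ℤ) (η : Cfg), Win q D l R →
  (l : ℤ) + R ≤ k → k ≤ n → Dob η D q k → FltO D η (q l) R false false →
  ∀ a : Fin J → ℤ, Scl a₀ K R a → (∀ i, K * a i ≤ R) →
    (∀ i j : Fin J, (i : ℕ) + 1 = j → a j ≤ 2 * K * a i) →
  ∀ f : Fin J → ℤ × ℤ → ℝ, (∀ i, Bp Cm (q l) (a i) (f i)) →
    c ≤ Ex (2 * Real.cos θ) D η (XG θ q D k (Ft (fun _ => θ / J) f (dlt (q l) (-θ)))) *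
      Real.exp (Ex0 θ P (fun _ : Fin J => θ / J) a) ∧
    Ex (2 * Real.cos θ) D η (XG θ q D k (Ft (fun _ => θ / J) f (dlt (q l) (-θ)))) *
      Real.exp (Ex0 θ P (fun _ : Fin J => θ / J) a) ≤ C

/-- **(BASE)** Change of the base in a free polygon, deterministic: total charge `θ` and the point
charge `- θ` at the other point. `q'` is the same polygon with the base `q l`. Owner: helper174. -/
def S_base (θ : ℝ) : Prop := ∀ (n : ℕ) (q q' : ZMod n → ℤ × ℤ) (D : Finset (ℤ × ℤ)) (l : ℕ), IsPolygon q →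
  Encloses q D → 0 < l → l < n → (∀ i : ZMod n, q' i = q (i + l)) → ∃ s : ℤ, (s = 0 ∨ s = 1 ∨ s = -1) ∧
  (((q 0).1 + (q 0).2) % 2 = ((q l).1 + (q l).2) % 2 → s = 0) ∧
  ∀ F : ℤ × ℤ → ℝ, (∀ z, F z ≠ 0 → z ∈ sites D) → ∑ᶠ z, F z = θ → ∀ ω : Cfg,
    XG θ q D n (fun z => F z + dlt (q l) (-θ) z) ω =
      (2 * Real.cos θ) ^ s * XG θ q' D n (fun z => F z + dlt (q 0) (-θ) z) ω

/-- **(TWO)** The functional of (PTP) is local: two domains with the same window. Owner: helper174. -/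
def S_two (θ : ℝ) (P : MeasureTheory.Measure Cfg) : Prop :=
  ∃ α : ℝ, 0 < α ∧ ∀ (J : ℕ) (Cm : ℝ), 0 < J → 0 < Cm → ∀ K' : ℤ, ∃ (C : ℝ) (a₀ : ℤ),
  ∀ (n n' : ℕ) (q : ZMod n → ℤ × ℤ) (q' : ZMod n' → ℤ × ℤ) (D D' : Finset (ℤ × ℤ)) (k l k' l' : ℕ) (R : ℤ)
    (η η' : Cfg), Win q D l R → Win q' D' l' R → q l = q' l' →
  (l : ℤ) + R ≤ k → k ≤ n → Dob η D q k → FltO D η (q l) R false false →
  (l' : ℤ) + R ≤ k' → k' ≤ n' → Dob η' D' q' k' → FltO D' η' (q l) R false false →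
  ∀ a : Fin J → ℤ, Scl a₀ 4 R a → (∀ i j : Fin J, (i : ℕ) + 1 = j → a j ≤ K' * a i) →
  ∀ f : Fin J → ℤ × ℤ → ℝ, (∀ i, Bp Cm (q l) (a i) (f i)) →
    |Ex (2 * Real.cos θ) D η (XG θ q D k (Ft (fun _ => θ / J) f (dlt (q l) (-θ)))) -
      Ex (2 * Real.cos θ) D' η' (XG θ q' D' k' (Ft (fun _ => θ / J) f (dlt (q l) (-θ))))| *
      Real.exp (Ex0 θ P (fun _ : Fin J => θ / J) a) ≤ C * (⨆ i, (a i : ℝ) / R) ^ α

end Vale.Agent.P167.H436.ND
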