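import Vale.Agent.P167.H436.ND.Jun
import Vale.Agent.P167.H640.ND.Top
import Vale.Agent.P167.H640.ND.Cls
import Vale.Agent.P167.H662.ND.SY
import Vale.Agent.P167.H135.ND.Cls3

/-!
# P167, general `q`, block Q-ND: the general theorem, closed form
-/

namespace Vale.Agent.P167.H436.ND

open MeasureTheory Vale.Agent.P167 Vale.Agent.P167.FK
open Vale.Agent.P167.H192.Q (SRSW)
open Vale.Agent.P167.H519 (IsLim)

theorem one_le_q {θ : ℝ} (h0 : 0 < θ) (h1 : θ ≤ Real.pi / 3) : 1 ≤ 2 * Real.cos θ := by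
  have hpi := Real.pi_pos
  have h2 : Real.cos (Real.pi / 3) ≤ Real.cos θ :=
    Real.cos_le_cos_of_nonneg_of_le_pi h0.le (by linarith) h1
  rw [Real.cos_pi_div_three] at h2
  linarith

/-- **(MR)**, closed form. -/
theorem s_mrF {θ : ℝ} {P : Measure Cfg} (h0 : 0 < θ) (h1 : θ ≤ Real.pi / 3)
    (hR : RSW (2 * Real.cos θ)) (hS : SRSW (2 * Real.cos θ)) (hP : IsLim (2 * Real.cos θ) P) :
    S_MR θ P := by
  have hQ := one_le_q h0 h1
  exact s_mr hQ hR hS H640.ND.s_cls H135.ND.s_big H640.ND.s_gap H640.ND.s_stay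
    (H662.ND.s_Y h0 h1 hR hP) (H640.ND.s_top (by linarith) (s_zn hQ hR))

end Vale.Agent.P167.H436.ND
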