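import Vale.Agent.P167.H436.ND.Nda6
import Vale.Agent.P167.H208.ND.JP
import Vale.Agent.P167.H208.ND.FP
import Vale.Agent.P167.H469.SrswB
import Vale.Agent.P167.K8.RswFin
import Vale.Agent.P167.H662.L.Lay7

/-!
# P167, general `q`, block Q-ND: `NDa` without hypotheses
-/

namespace Vale.Agent.P167.H436.ND

open Filter MeasureTheory Vale.Agent.P167
open Vale.Agent.P167.CA (Dat)
open Vale.Agent.P167.QB (gB)
open Vale.Agent.P167.H825.Q (Bc bdQ)
open Vale.Agent.P167.H411.Q (NDa bpt nrm)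

/-- **[Q-ND] (Q4) = (NDa)**, no hypothesis: the charge `π - 2 θ` at the junction (Dobrushin) and the
charge `- θ` at the same point (free). -/
theorem nda_fin {θ : ℝ} (h0 : 0 < θ) (h1 : θ ≤ Real.pi / 3)
    (hβ : Real.cos (θ / 2 + gB θ) = Real.sin θ) (S : Dat) {i : ℕ} {ta : ℝ}
    (hin : (Bc.dob i ta).In S.l) (hfr : Bc.free.In S.l) {L : Filter ℕ} (hL : L ≤ atTop)
    (hc : L.IsCountablyGenerated) :
    NDa θ ((bdQ S θ (gB θ) (.dob i ta) hin L hL hc).famB h0 h1 hβ)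
      ((bdQ S θ (gB θ) .free hfr L hL hc).famB h0 h1 hβ) (bpt S (i + ta)) (nrm S i) := by
  have hR := K8.k_rsw θ h0.le h1
  have hS := H469.srsw_of_rsw h0 h1 hR
  have h2 : 1 ≤ 2 * Real.cos θ := by
    have hpi := Real.pi_pos
    have : Real.cos (Real.pi / 3) ≤ Real.cos θ :=
      Real.cos_le_cos_of_nonneg_of_le_pi h0.le (by linarith) h1
    rw [Real.cos_pi_div_three] at this
    linarith
  obtain ⟨P, hP⟩ := H662.L.exists_isLim h2 hR
  exact nda_tip h0 h1 hβ (H208.ND.s_jun h0 h1 hR hS hP) (H208.ND.s_fre h0 h1 hR hS hP) hin hfr hL hc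

end Vale.Agent.P167.H436.ND
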