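import Vale.Agent.P167.H562.Q.MQ3

/-!
# P167, general `q`, block Q-ND: abstract estimates
-/

namespace Vale.Agent.P167.H436.ND

open Finset Vale.Agent.P167.FK
open Vale.Agent.P167.FKA (Loc Ind)

variable {Q : ℝ} {D : Finset (ℤ × ℤ)} {η : Cfg}

/-- `F` reads only the squares of `S` and the squares outside of `D`. -/
def Rd (D S : Finset (ℤ × ℤ)) (F : Cfg → ℝ) : Prop :=
  ∀ ω ω' : Cfg, (∀ v ∈ S, ω v = ω' v) → (∀ v, v ∉ D → ω v = ω' v) → F ω = F ω'

theorem Rd.mono {S S' : Finset (ℤ × ℤ)} {F : Cfg → ℝ} (h : Rd D S F) (hS : S ⊆ S') : Rd D S' F :=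
  fun ω ω' h1 h2 => h ω ω' (fun v hv => h1 v (hS hv)) h2

theorem Rd.ind {S T : Finset (ℤ × ℤ)} {F : Cfg → ℝ} (h : Rd D S F) (hT : T ⊆ D) (hd : Disjoint S T) :
    Ind T F := by
  intro ω ω' h1
  refine h ω ω' (fun v hv => h1 v fun hv' => ?_) fun v hv => h1 v fun hv' => hv (hT hv')
  exact (Finset.disjoint_left.1 hd) hv hv'

theorem Rd.mul {S T : Finset (ℤ × ℤ)} {F G : Cfg → ℝ} (h : Rd D S F) (h' : Rd D T G) :
    Rd D (S ∪ T) (fun ω => F ω * G ω) := by
  intro ω ω' h1 h2
  have e1 := h ω ω' (fun v hv => h1 v (mem_union_left _ hv)) h2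
  have e2 := h' ω ω' (fun v hv => h1 v (mem_union_right _ hv)) h2
  show F ω * G ω = F ω' * G ω'
  rw [e1, e2]

theorem Ind.mul {T : Finset (ℤ × ℤ)} {F G : Cfg → ℝ} (h : Ind T F) (h' : Ind T G) :
    Ind T (fun ω => F ω * G ω) := by
  intro ω ω' h1
  show F ω * G ω = F ω' * G ω'
  rw [h ω ω' h1, h' ω ω' h1]

/-- Product of functions which read disjoint sets. -/
theorem prod_ind {ι : Type*} [DecidableEq ι] (I : Finset ι) {F : ι → Cfg → ℝ}
    {S : ι → Finset (ℤ × ℤ)} {c : ι → ℝ} (hc : ∀ i ∈ I, 0 ≤ c i) (hS : ∀ i ∈ I, S i ⊆ D)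
    (hF0 : ∀ i ∈ I, ∀ ω, 0 ≤ F i ω) (hloc : ∀ i ∈ I, Rd D (S i) (F i))
    (hdis : ∀ i ∈ I, ∀ j ∈ I, i ≠ j → Disjoint (S i) (S j))
    (hstep : ∀ i ∈ I, ∀ G : Cfg → ℝ, (∀ ω, 0 ≤ G ω) → Ind (S i) G →
      Ex Q D η (fun ω => G ω * F i ω) ≤ c i * Ex Q D η G)
    {G : Cfg → ℝ} (hG0 : ∀ ω, 0 ≤ G ω) (hG : ∀ i ∈ I, Ind (S i) G) :
    Ex Q D η (fun ω => G ω * ∏ i ∈ I, F i ω) ≤ (∏ i ∈ I, c i) * Ex Q D η G := by
  induction I using Finset.induction_on with
  | empty => simp
  | @insert a I ha ih =>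
    have ih' := ih (fun i hi => hc i (mem_insert_of_mem hi)) (fun i hi => hS i (mem_insert_of_mem hi))
      (fun i hi => hF0 i (mem_insert_of_mem hi)) (fun i hi => hloc i (mem_insert_of_mem hi))
      (fun i hi j hj => hdis i (mem_insert_of_mem hi) j (mem_insert_of_mem hj))
      (fun i hi => hstep i (mem_insert_of_mem hi)) fun i hi => hG i (mem_insert_of_mem hi)
    have hprod0 : ∀ ω, 0 ≤ ∏ i ∈ I, F i ω := fun ω =>
      Finset.prod_nonneg fun i hi => hF0 i (mem_insert_of_mem hi) ω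
    have hind : Ind (S a) (fun ω => ∏ i ∈ I, F i ω) := by
      intro ω ω' h
      refine Finset.prod_congr rfl fun i hi => ?_
      have hne : i ≠ a := fun h' => ha (h' ▸ hi)
      exact (hloc i (mem_insert_of_mem hi)).ind (hS a (mem_insert_self _ _))
        (hdis i (mem_insert_of_mem hi) a (mem_insert_self _ _) hne) ω ω' h
    have h1 := hstep a (mem_insert_self _ _) (fun ω => G ω * ∏ i ∈ I, F i ω)
      (fun ω => mul_nonneg (hG0 ω) (hprod0 ω)) (Ind.mul (hG a (mem_insert_self _ _)) hind)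
    have e : (fun ω => G ω * ∏ i ∈ insert a I, F i ω) =
        fun ω => G ω * (∏ i ∈ I, F i ω) * F a ω := by
      funext ω
      rw [prod_insert ha]
      ring
    rw [e, prod_insert ha]
    refine h1.trans ?_
    have h2 := mul_le_mul_of_nonneg_left ih' (hc a (mem_insert_self _ _))
    linarith

/-- Recursion `w_s ≤ (M w_{s+1})^{1/2}`. -/
theorem rec_bound {w : ℕ → ℝ} {M B : ℝ} (hM : 1 ≤ M) (hB : 1 ≤ B) (S : ℕ)
    (hS : w S ≤ B) (h : ∀ s < S, w s ^ 2 ≤ M * w (s + 1)) :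
    w 0 ≤ M * B ^ ((1 / 2 : ℝ) ^ S) := by
  have key : ∀ k ≤ S, w (S - k) ≤ M * B ^ ((1 / 2 : ℝ) ^ k) := by
    intro k
    induction k with
    | zero =>
      intro _
      rw [Nat.sub_zero, pow_zero, Real.rpow_one]
      nlinarith
    | succ k ih =>
      intro hk
      have h1 := ih (by omega)
      have h2 := h (S - (k + 1)) (by omega)
      rw [show S - (k + 1) + 1 = S - k by omega] at h2
      have hB0 : 0 < B := by linarith
      set x : ℝ := B ^ ((1 / 2 : ℝ) ^ (k + 1)) with hx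
      have hx0 : 0 < x := Real.rpow_pos_of_pos hB0 _
      have e : B ^ ((1 / 2 : ℝ) ^ k) = x ^ 2 := by
        rw [hx, sq, ← Real.rpow_add hB0]
        congr 1
        rw [pow_succ]
        ring
      rw [e] at h1
      have h3 : w (S - (k + 1)) ^ 2 ≤ (M * x) ^ 2 := by
        refine h2.trans ?_
        have := mul_le_mul_of_nonneg_left h1 (by linarith : (0 : ℝ) ≤ M)
        nlinarith
      exact abs_le_of_sq_le_sq' h3 (by positivity) |>.2
  have := key S le_rfl
  rwa [Nat.sub_self] at this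

/-- **The two-sided bound.** -/
theorem two_sided (hQ : 0 < Q) {V Yp Ym X : Cfg → ℝ} {Bad : Set Cfg} {C1 C2 g A ε : ℝ}
    (hV : ∀ ω, 0 ≤ V ω) (hYm : ∀ ω, 0 ≤ Ym ω) (hC1 : 0 < C1) (hC2 : 0 < C2)
    (hg : 0 < g) (hA : Ex Q D η V = A) (hA0 : 0 < A)
    (h1 : ∀ S, S ⊆ D → |X (cf D η S)| ≤ C1 * (V (cf D η S) * Yp (cf D η S)))
    (h2 : ∀ S, S ⊆ D → cf D η S ∉ Bad → V (cf D η S) ≤ C1 * (X (cf D η S) * Ym (cf D η S)))
    (m1 : Ex Q D η (fun ω => V ω * Yp ω ^ 2) ≤ C2 * g ^ 2 * A)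
    (m2 : Ex Q D η (fun ω => V ω * Ym ω) ≤ C2 / g * A)
    (hε : 0 ≤ ε) (hε1 : ε ≤ 1 / 2)
    (hb : Ex Q D η (fun ω => V ω * Bad.indicator 1 ω) ≤ ε * A) :
    (1 / (4 * C1 * C2) - C1 * Real.sqrt (C2 * ε)) * (g * A) ≤ Ex Q D η X ∧
      Ex Q D η X ≤ C1 * Real.sqrt C2 * (g * A) := by
  classical
  have hsq : Real.sqrt C2 ^ 2 = C2 := Real.sq_sqrt hC2.le
  have hse : Real.sqrt ε ^ 2 = ε := Real.sq_sqrt hε
  have hm1 : Ex Q D η (fun ω => V ω * Yp ω ^ 2) ≤ (Real.sqrt C2 * g) ^ 2 * A := by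
    rw [mul_pow, hsq]; exact m1
  have hsg : 0 ≤ Real.sqrt C2 * g := by positivity
  constructor
  · -- lower bound
    have hi0 : ∀ ω : Cfg, (0 : ℝ) ≤ Bad.indicator 1 ω := fun ω => FKA.ind_nonneg _ _
    have hi1 : ∀ ω : Cfg, Bad.indicator (1 : Cfg → ℝ) ω ≤ 1 := fun ω => FKA.ind_le_one _ _
    have hisq : ∀ ω : Cfg, Bad.indicator (1 : Cfg → ℝ) ω ^ 2 = Bad.indicator 1 ω := by
      intro ω
      by_cases h : ω ∈ Bad
      · rw [Set.indicator_of_mem h]; simp
      · rw [Set.indicator_of_notMem h]; simp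
    -- the bad part
    have hbad : Ex Q D η (fun ω => V ω * (Bad.indicator 1 ω * Yp ω)) ≤
        Real.sqrt ε * (Real.sqrt C2 * g) * A := by
      refine H562.QM.ex_cs hQ hV (Real.sqrt_nonneg _) hsg hA0.le ?_ hm1
      simp only [hisq]
      rw [hse]
      exact hb
    have hbad2 : Ex Q D η (fun ω => Bad.indicator 1 ω * |X ω|) ≤
        C1 * (Real.sqrt ε * (Real.sqrt C2 * g) * A) := by
      have h3 : Ex Q D η (fun ω => Bad.indicator 1 ω * |X ω|) ≤
          Ex Q D η (fun ω => C1 * (V ω * (Bad.indicator 1 ω * Yp ω))) := by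
        refine FKA.Ex_mono hQ fun S hS => ?_
        have h4 := mul_le_mul_of_nonneg_left (h1 S hS) (hi0 (cf D η S))
        calc _ ≤ _ := h4
          _ = _ := by ring
      rw [FKA.Ex_mul_left] at h3
      exact h3.trans (mul_le_mul_of_nonneg_left hbad hC1.le)
    -- the good part
    set s : ℝ := 2 * C2 / g with hs
    have hs0 : 0 < s := by positivity
    have hgood : Ex Q D η (fun ω => V ω * (1 - Bad.indicator 1 ω)) ≤
        s * C1 / 2 * Ex Q D η (fun ω => (1 - Bad.indicator 1 ω) * X ω) + A / 4 := by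
      have h3 : Ex Q D η (fun ω => V ω * (1 - Bad.indicator 1 ω)) ≤
          Ex Q D η (fun ω => s * C1 / 2 * ((1 - Bad.indicator 1 ω) * X ω) +
            1 / (2 * s) * (V ω * Ym ω)) := by
        refine FKA.Ex_mono hQ fun S hS => ?_
        set ω := cf D η S with hω
        have hv := hV ω
        have hy := hYm ω
        have hz : 0 ≤ 1 / (2 * s) * (V ω * Ym ω) := by positivity
        by_cases hB : ω ∈ Bad
        · rw [Set.indicator_of_mem hB]
          simp only [Pi.one_apply, sub_self, mul_zero, zero_mul]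
          linarith
        · rw [Set.indicator_of_notMem hB, sub_zero, mul_one, one_mul]
          have h4 := h2 S hS hB
          have h5 := h1 S hS
          rw [← hω] at h4 h5
          rcases hv.eq_or_lt with h6 | h6
          · rw [← h6] at h5 ⊢
            have h7 : X ω = 0 := by
              have : |X ω| ≤ 0 := by simpa using h5
              exact abs_eq_zero.1 (le_antisymm this (abs_nonneg _))
            rw [h7]; simp
          · have h8 : 0 < X ω * Ym ω := by
              by_contra hcon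
              push Not at hcon
              nlinarith
            have h9 : 0 < X ω := pos_of_mul_pos_left h8 hy
            -- AM-GM
            have h10 : V ω ^ 2 ≤ (C1 * X ω) * (V ω * Ym ω) := by nlinarith
            have h11 : (2 * V ω) ^ 2 ≤ (s * (C1 * X ω) + s⁻¹ * (V ω * Ym ω)) ^ 2 := by
              have h12 : (s * (C1 * X ω) + s⁻¹ * (V ω * Ym ω)) ^ 2 =
                  (s * (C1 * X ω) - s⁻¹ * (V ω * Ym ω)) ^ 2 + 4 * ((C1 * X ω) * (V ω * Ym ω)) := by
                field_simp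
                ring
              rw [h12]
              nlinarith [sq_nonneg (s * (C1 * X ω) - s⁻¹ * (V ω * Ym ω))]
            have h13 : 2 * V ω ≤ s * (C1 * X ω) + s⁻¹ * (V ω * Ym ω) :=
              abs_le_of_sq_le_sq' h11 (by positivity) |>.2
            have e : s * C1 / 2 * X ω + 1 / (2 * s) * (V ω * Ym ω) =
                (s * (C1 * X ω) + s⁻¹ * (V ω * Ym ω)) / 2 := by
              field_simp
            rw [e]; linarith
      rw [FKA.Ex_add, FKA.Ex_mul_left, FKA.Ex_mul_left] at h3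
      have h4 : 1 / (2 * s) * Ex Q D η (fun ω => V ω * Ym ω) ≤ A / 4 := by
        refine (mul_le_mul_of_nonneg_left m2 (by positivity)).trans (le_of_eq ?_)
        rw [hs]
        field_simp
        ring
      linarith
    have hVg : A / 2 ≤ Ex Q D η (fun ω => V ω * (1 - Bad.indicator 1 ω)) := by
      have e : (fun ω => V ω * (1 - Bad.indicator 1 ω)) =
          fun ω => V ω - V ω * Bad.indicator 1 ω := by funext ω; ring
      rw [e, FKA.Ex_sub, hA]
      nlinarith
    have hXg : g * A / (4 * C1 * C2) ≤ Ex Q D η (fun ω => (1 - Bad.indicator 1 ω) * X ω) := by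
      have h5 : A / 4 ≤ s * C1 / 2 * Ex Q D η (fun ω => (1 - Bad.indicator 1 ω) * X ω) := by linarith
      rw [div_le_iff₀ (by positivity)]
      rw [hs] at h5
      have e : 2 * C2 / g * C1 / 2 * Ex Q D η (fun ω => (1 - Bad.indicator 1 ω) * X ω) =
          (C1 * C2 * Ex Q D η (fun ω => (1 - Bad.indicator 1 ω) * X ω)) / g := by
        field_simp
      rw [e, le_div_iff₀ hg] at h5
      nlinarith
    have hsplit : Ex Q D η X = Ex Q D η (fun ω => (1 - Bad.indicator 1 ω) * X ω) +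
        Ex Q D η (fun ω => Bad.indicator 1 ω * X ω) := by
      rw [← FKA.Ex_add]
      exact FKA.Ex_congr fun S _ => by ring
    have hneg : -(C1 * (Real.sqrt ε * (Real.sqrt C2 * g) * A)) ≤
        Ex Q D η (fun ω => Bad.indicator 1 ω * X ω) := by
      have h6 : -Ex Q D η (fun ω => Bad.indicator 1 ω * |X ω|) ≤
          Ex Q D η (fun ω => Bad.indicator 1 ω * X ω) := by
        rw [← FKA.Ex_neg]
        refine FKA.Ex_mono hQ fun S _ => ?_
        have := mul_le_mul_of_nonneg_left (neg_abs_le (X (cf D η S))) (hi0 (cf D η S))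
        linarith
      linarith
    rw [hsplit, Real.sqrt_mul hC2.le]
    have e : (1 / (4 * C1 * C2) - C1 * (Real.sqrt C2 * Real.sqrt ε)) * (g * A) =
        g * A / (4 * C1 * C2) - C1 * (Real.sqrt ε * (Real.sqrt C2 * g) * A) := by
      field_simp
    rw [e]
    linarith
  · -- upper bound
    have h3 : Ex Q D η (fun ω => V ω * ((1 : ℝ) * Yp ω)) ≤ 1 * (Real.sqrt C2 * g) * A := by
      refine H562.QM.ex_cs hQ hV zero_le_one hsg hA0.le (F1 := fun _ => 1) ?_ hm1
      simp only [one_pow, mul_one, one_mul]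
      exact hA.le
    have h4 : Ex Q D η X ≤ Ex Q D η (fun ω => C1 * (V ω * ((1 : ℝ) * Yp ω))) := by
      refine FKA.Ex_mono hQ fun S hS => ?_
      have := (le_abs_self _).trans (h1 S hS)
      simpa using this
    rw [FKA.Ex_mul_left] at h4
    refine h4.trans ?_
    have := mul_le_mul_of_nonneg_left h3 hC1.le
    linarith

end Vale.Agent.P167.H436.ND
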