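import Vale.Agent.P167.H436.ND.Cut2

/-!
# P167, general `q`, block Q-ND: the bad events
-/

namespace Vale.Agent.P167.H436.ND

open Finset MeasureTheory Vale.Agent.P167 Vale.Agent.P167.BR Vale.Agent.P167.FK
open Vale.Agent.P167.FKA (Loc Ind)
open Vale.Agent.P167.H192.TA (Xc dF mem_dF)
open Vale.Agent.P167.H192.Q (SRSW pX ex_Xc_le pX_dec pX_nonneg)

variable {n m : ℕ} {q : ZMod n → ℤ × ℤ} {D : Finset (ℤ × ℤ)} {v : ℕ → ℝ} {R : ℤ}
  {a : Fin m → ℤ} {S s l : ℕ} {η : Cfg} {pl pr : Bool} {Q : ℝ}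

theorem dF_eq (b : ℤ × ℤ) (r R : ℤ) : dF b r R = Zg b r R := by
  ext v
  rw [mem_dF, mem_Zg]
  simp only [H192.TA.dq, Set.mem_ofPred_eq]
  tauto

/-- On a crossing of the gap the pieces which visit the gap have trivial class. -/
theorem Vc_gap (hgap : S_gap) (hstay : S_stay) (hW : Win q D l R) (h : Lok S R a) (hv0 : v 0 = 1)
    {i j : Fin m} (hij : (i : ℕ) + 1 = j) {ω : Cfg} {c : Bool} (hω : ω ∈ Xc c (q l) (2 * a i) (a j)) :
    Vc v q D (zf (q l) a) (UU (q l) a 0) ω =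
      Vc v q D (zf (q l) a) (UU (q l) a 0 ∪ Zg (q l) (2 * a i) (a j)) ω := by
  classical
  have hz := h.zns (s := 0) (by omega)
  refine Vc_eq subset_union_left fun A hA h1 h2 => ?_
  have h1' : ∀ i', ¬ Vz (Zg (q l) (rh a 0 i') (sg' a 0 i')) A := fun i' hi' => h1 (vz_UU.2 ⟨i', hi'⟩)
  have h3 : Vz (Zg (q l) (sg' a 0 i) (rh a 0 j)) A := by
    rw [sg_zero, rh_zero]
    exact (vz_union.1 h2).resolve_left h1
  rcases hstay n q D l R hW m (rh a 0) (sg' a 0) hz ω A hA h1' i j hij h3 with h4 | ⟨h4, h5⟩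
  · have : clz q D (zf (q l) a) A = 0 := by
      unfold clz
      rw [card_eq_zero, filter_eq_empty_iff]
      exact fun i' _ => h4 i' _ (zf_mem h 0 i')
    rw [this, hv0]
  · exfalso
    have h6 := hgap n q D l R hW m (rh a 0) (sg' a 0) hz ω A hA h1' i j hij c
      (by rw [sg_zero, rh_zero]; exact hω) _ (zf_mem h 0 i) _ (zf_mem h 0 j)
    exact h5 _ (zf_mem h 0 j) (h6.1 (h4 _ (zf_mem h 0 i)))

/-- The expectation of the reference weight on a bad event. -/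
theorem bad_one (hQ : 1 ≤ Q) (hgap : S_gap) (hstay : S_stay) (hW : Win q D l R) (h : Lok S R a)
    (hv0 : v 0 = 1) (hv1 : ∀ j, 1 ≤ v j) (hη : Good η) {i j : Fin m} (hij : (i : ℕ) + 1 = j) :
    Ex Q D η (fun ω => Vc v q D (zf (q l) a) (UU (q l) a 0) ω *
      (Xc false (q l) (2 * a i) (a j)).indicator 1 ω) ≤
      pX Q false (q l) (2 * a i) (a j) * Ex Q D η (Vc v q D (zf (q l) a) (UU (q l) a 0)) := by
  classical
  have hQ0 : 0 < Q := by linarith
  have hai := h.a_pos i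
  have haj := h.sg_top (s := 0) (by omega) j
  rw [sg_zero] at haj
  have haj' := h.a_pos j
  have hG : Zg (q l) (2 * a i) (a j) ⊆ D := Zg_sub hW.flat (by omega)
  have hU : UU (q l) a 0 ∪ Zg (q l) (2 * a i) (a j) ⊆ D :=
    union_subset (h.UU_sub hW.flat (by omega)) hG
  have h1 : Ex Q D η (fun ω => Vc v q D (zf (q l) a) (UU (q l) a 0) ω *
      (Xc false (q l) (2 * a i) (a j)).indicator 1 ω) =
      Ex Q D η (fun ω => Vc v q D (zf (q l) a) (UU (q l) a 0 ∪ Zg (q l) (2 * a i) (a j)) ω *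
      (Xc false (q l) (2 * a i) (a j)).indicator 1 ω) := by
    refine FKA.Ex_congr fun S _ => ?_
    by_cases hω : cf D η S ∈ Xc false (q l) (2 * a i) (a j)
    · rw [Vc_gap hgap hstay hW h hv0 hij hω]
    · rw [Set.indicator_of_notMem hω, mul_zero, mul_zero]
  rw [h1]
  have hd : dF (q l) (2 * a i) (a j) ⊆ D := by rw [dF_eq]; exact hG
  have hg : Ind (dF (q l) (2 * a i) (a j))
      (Vc v q D (zf (q l) a) (UU (q l) a 0 ∪ Zg (q l) (2 * a i) (a j))) := by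
    rw [dF_eq]; exact FKA.Ind.mono subset_union_right (Vc_ind hU)
  have h1r : 1 ≤ 2 * a i := by omega
  have h2 := ex_Xc_le (c := false) hQ h1r hd hη (fun ω => zero_le_one.trans (Vc_one_le hv1)) hg
  refine h2.trans (mul_le_mul_of_nonneg_left ?_ (pX_nonneg hQ))
  exact FKA.Ex_mono hQ0 fun S _ => Vc_anti hv1 subset_union_left

/-- The bad set. -/
def BadS (b : ℤ × ℤ) (a : Fin m → ℤ) : Set Cfg :=
  {ω | ∃ i j : Fin m, (i : ℕ) + 1 = j ∧ ω ∈ Xc false b (2 * a i) (a j)}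

/-- **The bad events.** -/
theorem bad_all (hQ : 1 ≤ Q) (hS : SRSW Q) (hgap : S_gap) (hstay : S_stay) (m : ℕ) : ∃ α C : ℝ, 0 < α ∧
    0 < C ∧ ∀ (S : ℕ) (R : ℤ) (a : Fin m → ℤ), Lok S R a →
    ∀ K : ℤ, 4 ≤ K → (∀ i j, i < j → K * a i ≤ a j) →
    ∀ (n : ℕ) (q : ZMod n → ℤ × ℤ) (D : Finset (ℤ × ℤ)) (l : ℕ) (η : Cfg), Win q D l R → Good η →
    ∀ v : ℕ → ℝ, v 0 = 1 → (∀ j, 1 ≤ v j) →
      Ex Q D η (fun ω => Vc v q D (zf (q l) a) (UU (q l) a 0) ω * (BadS (q l) a).indicator 1 ω) ≤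
        C * (2 / K) ^ α * Ex Q D η (Vc v q D (zf (q l) a) (UU (q l) a 0)) := by
  classical
  have hQ0 : 0 < Q := by linarith
  obtain ⟨α, C, hα, hC, hdec⟩ := pX_dec hQ hS
  refine ⟨α, (m * m + 1) * C, hα, by positivity, fun S R a h K hK hstep n q D l η hW hη v hv0 hv1 => ?_⟩
  set V := Vc v q D (zf (q l) a) (UU (q l) a 0) with hV
  have hV1 : ∀ ω, 1 ≤ V ω := fun ω => Vc_one_le hv1
  have hE : 0 ≤ Ex Q D η V := FKA.Ex_nonneg hQ0 fun _ _ => zero_le_one.trans (hV1 _)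
  have hKr : (4 : ℝ) ≤ K := by exact_mod_cast hK
  set I : Finset (Fin m × Fin m) := univ.filter fun p => (p.1 : ℕ) + 1 = p.2 with hI
  have h1 : ∀ ω, V ω * (BadS (q l) a).indicator 1 ω ≤
      ∑ p ∈ I, V ω * (Xc false (q l) (2 * a p.1) (a p.2)).indicator 1 ω := by
    intro ω
    have hnn : ∀ p ∈ I, 0 ≤ V ω * (Xc false (q l) (2 * a p.1) (a p.2)).indicator 1 ω := fun p _ =>
      mul_nonneg (zero_le_one.trans (hV1 ω)) (FKA.ind_nonneg _ _)
    by_cases hω : ω ∈ BadS (q l) a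
    · obtain ⟨i, j, hij, hω'⟩ := hω
      have h2 : (BadS (q l) a).indicator (1 : Cfg → ℝ) ω = 1 := by
        rw [Set.indicator_of_mem (show ω ∈ BadS (q l) a from ⟨i, j, hij, hω'⟩)]; rfl
      rw [h2]
      have hmem : (i, j) ∈ I := by rw [hI, mem_filter]; exact ⟨mem_univ _, hij⟩
      have h3 := Finset.single_le_sum hnn hmem
      refine le_trans (le_of_eq ?_) h3
      simp only
      rw [Set.indicator_of_mem hω']
      rfl
    · rw [Set.indicator_of_notMem hω, mul_zero]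
      exact Finset.sum_nonneg hnn
  have h2 : Ex Q D η (fun ω => V ω * (BadS (q l) a).indicator 1 ω) ≤
      ∑ p ∈ I, Ex Q D η (fun ω => V ω * (Xc false (q l) (2 * a p.1) (a p.2)).indicator 1 ω) := by
    rw [← FKA.Ex_sum]
    exact FKA.Ex_mono hQ0 fun S _ => h1 _
  have h3 : ∀ p ∈ I, Ex Q D η (fun ω => V ω * (Xc false (q l) (2 * a p.1) (a p.2)).indicator 1 ω) ≤
      C * (2 / K) ^ α * Ex Q D η V := by
    intro p hp
    rw [hI, mem_filter] at hp
    refine (bad_one hQ hgap hstay hW h hv0 hv1 hη hp.2).trans (mul_le_mul_of_nonneg_right ?_ hE)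
    have hai := h.a_pos p.1
    have hst := hstep p.1 p.2 (by rw [Fin.lt_def]; omega)
    have hle : 2 * a p.1 ≤ a p.2 := by nlinarith
    refine (hdec false (q l) (2 * a p.1) (a p.2) (by omega) hle).trans
      (mul_le_mul_of_nonneg_left ?_ hC.le)
    have hai' : (0 : ℝ) < a p.1 := by exact_mod_cast (by omega : (0 : ℤ) < a p.1)
    have hst' : (K : ℝ) * a p.1 ≤ a p.2 := by exact_mod_cast hst
    have haj' : (0 : ℝ) < a p.2 := by nlinarith
    refine Real.rpow_le_rpow (by positivity) ?_ hα.le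
    rw [div_le_div_iff₀ haj' (by linarith)]
    push_cast
    nlinarith
  refine h2.trans ((Finset.sum_le_sum h3).trans ?_)
  rw [Finset.sum_const, nsmul_eq_mul]
  have h4 : (I.card : ℝ) ≤ m * m + 1 := by
    have : I.card ≤ m * m := by
      refine (Finset.card_filter_le _ _).trans ?_
      rw [Finset.card_univ, Fintype.card_prod, Fintype.card_fin]
    have : (I.card : ℝ) ≤ m * m := by exact_mod_cast this
    linarith
  have h5 : 0 ≤ C * (2 / (K : ℝ)) ^ α * Ex Q D η V := by positivity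
  calc (I.card : ℝ) * (C * (2 / (K : ℝ)) ^ α * Ex Q D η V) ≤
      (m * m + 1) * (C * (2 / (K : ℝ)) ^ α * Ex Q D η V) := mul_le_mul_of_nonneg_right h4 h5
    _ = _ := by ring

end Vale.Agent.P167.H436.ND
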