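import Vale.Agent.P167.H436.ND.Defs
import Vale.Agent.P167.H436.ND.Abs
import Vale.Agent.P167.BR.Gdl

/-!
# P167, general `q`, block Q-ND: products of class weights over the pieces which avoid a set of squares
-/

namespace Vale.Agent.P167.H436.ND

open Finset Vale.Agent.P167 Vale.Agent.P167.BR Vale.Agent.P167.FK
open Vale.Agent.P167.FKA (Loc Ind)
open Vale.Agent.P167.QX (wB XB lo hi)
open Vale.Agent.P167.E6 (IsPolygon Encloses)
open Vale.Agent.P167.H562.QM (MajA)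

/-- **(LOC)** -/
theorem s_loc : S_loc := by
  intro D Z ω ω' _ h A hA hV
  refine mem_pcs_congr hA fun e he hd => h _ fun hz => hV ⟨e, he, mem_eds.2 (Or.inl hz)⟩

variable {n m : ℕ} {q : ZMod n → ℤ × ℤ} {D : Finset (ℤ × ℤ)} {zr : Fin m → ℤ × ℤ} {v : ℕ → ℝ}
  {U U' : Finset (ℤ × ℤ)} {ω ω' : Cfg} {A : Finset Ed}

open Classical in
/-- The class of a piece: the number of the reference sites which it separates from the base. -/
noncomputable def clz (q : ZMod n → ℤ × ℤ) (D : Finset (ℤ × ℤ)) (zr : Fin m → ℤ × ℤ)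
    (A : Finset Ed) : ℕ :=
  (univ.filter fun i => Sep D A (zr i) (q 0)).card

open Classical in
/-- The product of the class weights of the pieces which avoid `U`. -/
noncomputable def Vc (v : ℕ → ℝ) (q : ZMod n → ℤ × ℤ) (D : Finset (ℤ × ℤ)) (zr : Fin m → ℤ × ℤ)
    (U : Finset (ℤ × ℤ)) (ω : Cfg) : ℝ :=
  ∏ A ∈ (pcs ω D).filter (fun A => ¬ Vz U A), v (clz q D zr A)

theorem Vc_one_le (hv : ∀ j, 1 ≤ v j) : 1 ≤ Vc v q D zr U ω := by
  unfold Vc
  exact Finset.prod_induction _ (fun x : ℝ => 1 ≤ x) (fun a b ha hb => one_le_mul_of_one_le_of_one_le ha hb)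
    le_rfl fun _ _ => hv _

theorem Vz.mono' (h : U ⊆ U') (hA : Vz U A) : Vz U' A := by
  obtain ⟨e, he, h1⟩ := hA
  exact ⟨e, he, eds_mono h h1⟩

theorem Vc_ind (hU : U ⊆ D) : Ind U (Vc v q D zr U) := by
  classical
  intro ω ω' h
  unfold Vc
  refine Finset.prod_congr ?_ fun _ _ => rfl
  ext A
  rw [mem_filter, mem_filter]
  constructor
  · rintro ⟨h1, h2⟩
    exact ⟨s_loc D U ω ω' hU h A h1 h2, h2⟩
  · rintro ⟨h1, h2⟩
    exact ⟨s_loc D U ω' ω hU (fun v hv => (h v hv).symm) A h1 h2, h2⟩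

/-- Enlarging the set decreases the product. -/
theorem Vc_anti (hv : ∀ j, 1 ≤ v j) (hU : U ⊆ U') : Vc v q D zr U' ω ≤ Vc v q D zr U ω := by
  classical
  unfold Vc
  have hsub : (pcs ω D).filter (fun A => ¬ Vz U' A) ⊆ (pcs ω D).filter (fun A => ¬ Vz U A) := by
    intro A hA
    rw [mem_filter] at hA ⊢
    exact ⟨hA.1, fun h => hA.2 (Vz.mono' hU h)⟩
  rw [← Finset.prod_sdiff hsub]
  have h1 : (1 : ℝ) ≤ ∏ A ∈ (pcs ω D).filter (fun A => ¬ Vz U A) \
      (pcs ω D).filter (fun A => ¬ Vz U' A), v (clz q D zr A) :=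
    Finset.prod_induction _ (fun x : ℝ => 1 ≤ x)
      (fun a b ha hb => one_le_mul_of_one_le_of_one_le ha hb) le_rfl fun _ _ => hv _
  have h2 : (0 : ℝ) ≤ ∏ A ∈ (pcs ω D).filter (fun A => ¬ Vz U' A), v (clz q D zr A) :=
    Finset.prod_nonneg fun _ _ => zero_le_one.trans (hv _)
  nlinarith

/-- Nothing is lost if the pieces which visit the additional set have weight one. -/
theorem Vc_eq (hU : U ⊆ U') (h : ∀ A ∈ pcs ω D, ¬ Vz U A → Vz U' A → v (clz q D zr A) = 1) :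
    Vc v q D zr U ω = Vc v q D zr U' ω := by
  classical
  unfold Vc
  symm
  refine Finset.prod_subset ?_ ?_
  · intro A hA
    rw [mem_filter] at hA ⊢
    exact ⟨hA.1, fun h => hA.2 (Vz.mono' hU h)⟩
  · intro A hA hA'
    rw [mem_filter] at hA
    refine h A hA.1 hA.2 ?_
    by_contra hcon
    exact hA' (mem_filter.2 ⟨hA.1, hcon⟩)

/-- The loss in terms of the number of the pieces which visit the additional set. -/
theorem Vc_le {vs : ℝ} (hvs : 1 ≤ vs) (hv : ∀ j, 1 ≤ v j) (hv2 : ∀ j, v j ≤ vs) (hU : U ⊆ U') {N : ℕ}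
    (hN : ∀ 𝓕 : Finset (Finset Ed), (∀ A ∈ 𝓕, A ∈ pcs ω D ∧ ¬ Vz U A ∧ Vz U' A ∧ v (clz q D zr A) ≠ 1) →
      𝓕.card ≤ N) :
    Vc v q D zr U ω ≤ Vc v q D zr U' ω * vs ^ N := by
  classical
  unfold Vc
  set P := (pcs ω D).filter (fun A => ¬ Vz U A) with hP
  have e1 : P.filter (fun A => ¬ Vz U' A) = (pcs ω D).filter (fun A => ¬ Vz U' A) := by
    ext A
    simp only [hP, mem_filter]
    constructor
    · rintro ⟨⟨h1, _⟩, h2⟩; exact ⟨h1, h2⟩
    · rintro ⟨h1, h2⟩; exact ⟨⟨h1, fun h => h2 (Vz.mono' hU h)⟩, h2⟩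
  rw [← Finset.prod_filter_mul_prod_filter_not P (fun A => ¬ Vz U' A), e1]
  refine mul_le_mul_of_nonneg_left ?_ (Finset.prod_nonneg fun _ _ => zero_le_one.trans (hv _))
  set P2 := P.filter (fun A => ¬ ¬ Vz U' A) with hP2
  have e2 : ∏ A ∈ P2, v (clz q D zr A) =
      ∏ A ∈ P2.filter (fun A => v (clz q D zr A) ≠ 1), v (clz q D zr A) :=
    (Finset.prod_filter_ne_one P2).symm
  rw [e2]
  set P3 := P2.filter (fun A => v (clz q D zr A) ≠ 1) with hP3
  have h3 : P3.card ≤ N := by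
    refine hN P3 fun A hA => ?_
    rw [hP3, mem_filter, hP2, mem_filter, hP, mem_filter, not_not] at hA
    exact ⟨hA.1.1.1, hA.1.1.2, hA.1.2, hA.2⟩
  calc ∏ A ∈ P3, v (clz q D zr A) ≤ ∏ _A ∈ P3, vs :=
        Finset.prod_le_prod (fun _ _ => zero_le_one.trans (hv _)) fun _ _ => hv2 _
    _ = vs ^ P3.card := by rw [Finset.prod_const]
    _ ≤ vs ^ N := pow_le_pow_right₀ hvs h3

/-! ### pieces and squares -/

/-- A piece which visits a set of squares of `D` enters one of its squares. -/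
theorem vz_hdv (hA : A ∈ pcs ω D) (hU : U ⊆ D) (h : Vz U A) : ∃ e ∈ A, hdv e ∈ U := by
  obtain ⟨e, he, h1⟩ := h
  rcases mem_eds.1 h1 with h2 | h2
  · exact ⟨e, he, h2⟩
  · -- the previous edge
    obtain ⟨e', rfl⟩ : ∃ e', nx ω e' = e := (s_nx ω).2 e
    have h3 : hdv e' = tlv (nx ω e') := by rw [tlv_nx]
    refine ⟨e', (nx_mem_iff hA ?_).2 he, ?_⟩
    · rw [h3]; exact hU h2
    · rw [h3]; exact h2

theorem vz_union : Vz (U ∪ U') A ↔ Vz U A ∨ Vz U' A := by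
  constructor
  · rintro ⟨e, he, h⟩
    rw [mem_eds, mem_union, mem_union] at h
    rcases h with (h | h) | (h | h)
    · exact Or.inl ⟨e, he, mem_eds.2 (Or.inl h)⟩
    · exact Or.inr ⟨e, he, mem_eds.2 (Or.inl h)⟩
    · exact Or.inl ⟨e, he, mem_eds.2 (Or.inr h)⟩
    · exact Or.inr ⟨e, he, mem_eds.2 (Or.inr h)⟩
  · rintro (h | h)
    · exact Vz.mono' subset_union_left h
    · exact Vz.mono' subset_union_right h

theorem vz_biUnion {ι : Type*} [DecidableEq ι] {I : Finset ι} {Z : ι → Finset (ℤ × ℤ)} :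
    Vz (I.biUnion Z) A ↔ ∃ i ∈ I, Vz (Z i) A := by
  constructor
  · rintro ⟨e, he, h⟩
    rw [mem_eds, mem_biUnion, mem_biUnion] at h
    rcases h with ⟨i, hi, h⟩ | ⟨i, hi, h⟩
    · exact ⟨i, hi, e, he, mem_eds.2 (Or.inl h)⟩
    · exact ⟨i, hi, e, he, mem_eds.2 (Or.inr h)⟩
  · rintro ⟨i, hi, h⟩
    exact Vz.mono' (subset_biUnion_of_mem Z hi) h

/-- The number of the pieces of a family which visit `U` and have diameter at least `d`. -/
theorem card_le_maj {d : ℝ} {N : ℕ} (hN : MajA U d ω N) (hU : U ⊆ D) {𝓕 : Finset (Finset Ed)}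
    (h : ∀ A ∈ 𝓕, A ∈ pcs ω D ∧ Vz U A ∧ ∃ e1 ∈ A, ∃ e2 ∈ A, d ≤ (nm (hdv e1 - hdv e2) : ℝ)) :
    𝓕.card ≤ N := by
  refine hN 𝓕 (fun A hA => H542.isSeg_piece (h A hA).1) ?_ fun A hA =>
    ⟨vz_hdv (h A hA).1 hU (h A hA).2.1, (h A hA).2.2⟩
  intro A hA B hB hne
  rw [Finset.disjoint_left]
  intro e he he'
  exact hne (eq_of_mem_pcs (h A hA).1 (h B hB).1 he he')

end Vale.Agent.P167.H436.ND
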