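import Vale.Agent.P167.H436.ND.MRf
import Vale.Agent.P167.H208.ND.Red

/-!
# P167, general `q`, block Q-ND: `S_fre` and `S_ptp`, closed form
-/

namespace Vale.Agent.P167.H436.ND

open MeasureTheory Vale.Agent.P167 Vale.Agent.P167.FK
open Vale.Agent.P167.H192.Q (SRSW)
open Vale.Agent.P167.H519 (IsLim)

/-- **(FRE)**, closed form. -/
theorem s_fre {θ : ℝ} {P : Measure Cfg} (h0 : 0 < θ) (h1 : θ ≤ Real.pi / 3)
    (hR : RSW (2 * Real.cos θ)) (hS : SRSW (2 * Real.cos θ)) (hP : IsLim (2 * Real.cos θ) P) :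
    S_fre θ P := H208.ND.fre_of_mr h0 h1 (s_mrF h0 h1 hR hS hP)

/-- **(PTP)**, closed form. -/
theorem s_ptp {θ : ℝ} {P : Measure Cfg} (h0 : 0 < θ) (h1 : θ ≤ Real.pi / 3)
    (hR : RSW (2 * Real.cos θ)) (hS : SRSW (2 * Real.cos θ)) (hP : IsLim (2 * Real.cos θ) P) :
    S_ptp θ P := H208.ND.ptp_of_mr h0 h1 (s_mrF h0 h1 hR hS hP)

/-- **(JUN)** from the deterministic part. -/
theorem s_jun {θ : ℝ} {P : Measure Cfg} (h0 : 0 < θ) (h1 : θ ≤ Real.pi / 3)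
    (hR : RSW (2 * Real.cos θ)) (hS : SRSW (2 * Real.cos θ)) (hP : IsLim (2 * Real.cos θ) P)
    (hjd : S_jd θ) : S_jun θ P := jun_of h0 h1 hjd (s_mrF h0 h1 hR hS hP)

end Vale.Agent.P167.H436.ND
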