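import Vale.Agent.P167.H436.ND.Cls

/-!
# P167, general `q`, block Q-ND: levels of zones around the rings
-/

namespace Vale.Agent.P167.H436.ND

open Finset Vale.Agent.P167 Vale.Agent.P167.BR Vale.Agent.P167.FK
open Vale.Agent.P167.FKA (Loc Ind)
open Vale.Agent.P167.QX (wB XB lo hi)
open Vale.Agent.P167.E6 (IsPolygon Encloses)
open Vale.Agent.P167.H562.QM (MajA FltQ OneC macro_B)
open Vale.Agent.P167.H166 (bxx mem_bxx)

variable {n m : ℕ} {q : ZMod n → ℤ × ℤ} {D : Finset (ℤ × ℤ)} {v : ℕ → ℝ} {b : ℤ × ℤ} {R : ℤ}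
  {ω ω' : Cfg} {A : Finset Ed} {a : Fin m → ℤ} {S s l : ℕ} {η : Cfg} {pl pr : Bool}

theorem mem_Zg {ρ σ : ℤ} {v : ℤ × ℤ} : v ∈ Zg b ρ σ ↔
    (b.1 - σ ≤ v.1 ∧ v.1 < b.1 + σ ∧ b.2 ≤ v.2 ∧ v.2 < b.2 + σ) ∧
    (v.1 < b.1 - ρ ∨ b.1 + ρ ≤ v.1 ∨ b.2 + ρ ≤ v.2) := by
  unfold Zg
  rw [mem_sdiff, mem_hbox, mem_hbox]
  constructor
  · rintro ⟨h1, h2⟩
    refine ⟨h1, ?_⟩
    by_contra hcon
    push Not at hcon
    exact h2 ⟨by omega, by omega, by omega, by omega⟩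
  · rintro ⟨h1, h2⟩
    refine ⟨h1, fun h3 => ?_⟩
    omega

theorem Zg_sub {ρ σ : ℤ} (hF : Flt D b R) (h : σ ≤ R) : Zg b ρ σ ⊆ D := fun v hv =>
  hbox_sub hF (hbox_mono h (mem_sdiff.1 hv).1)

theorem Zg_mono {ρ σ ρ' σ' : ℤ} (h1 : ρ' ≤ ρ) (h2 : σ ≤ σ') : Zg b ρ σ ⊆ Zg b ρ' σ' := by
  intro v hv
  rw [mem_Zg] at hv ⊢
  omega

theorem Zg_disj {ρ σ ρ' σ' : ℤ} (h : σ ≤ ρ') : Disjoint (Zg b ρ σ) (Zg b ρ' σ') := by
  rw [disjoint_left]
  intro v hv hv'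
  rw [mem_Zg] at hv hv'
  omega

/-- The scales of the levels `s ≤ S + 2`. -/
structure Lok (S : ℕ) (R : ℤ) (a : Fin m → ℤ) : Prop where
  pos : ∀ i, (4 : ℤ) ^ (S + 4) ≤ a i
  step : ∀ i j, i < j → (4 : ℤ) ^ (2 * S + 8) * a i ≤ a j
  top : ∀ i, (4 : ℤ) ^ (S + 4) * a i ≤ R

/-- The inner radius at level `s`. -/
def rh (a : Fin m → ℤ) (s : ℕ) (i : Fin m) : ℤ := a i / 4 ^ s

/-- The outer radius at level `s`. -/
def sg' (a : Fin m → ℤ) (s : ℕ) (i : Fin m) : ℤ := 2 * a i * 4 ^ s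

/-- The union of the zones of level `s`. -/
noncomputable def UU (b : ℤ × ℤ) (a : Fin m → ℤ) (s : ℕ) : Finset (ℤ × ℤ) :=
  univ.biUnion fun i : Fin m => Zg b (rh a s i) (sg' a s i)

theorem rh_zero (i : Fin m) : rh a 0 i = a i := by simp [rh]

theorem sg_zero (i : Fin m) : sg' a 0 i = 2 * a i := by simp [sg']

theorem rh_succ (i : Fin m) : rh a (s + 1) i = rh a s i / 4 := by
  unfold rh
  rw [pow_succ, Int.ediv_ediv_of_nonneg (by positivity)]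

theorem sg_succ (i : Fin m) : sg' a (s + 1) i = 4 * sg' a s i := by
  unfold sg'
  rw [pow_succ]; ring

namespace Lok

variable (h : Lok S R a)

include h

theorem rh_ge {s : ℕ} (hs : s ≤ S + 3) (i : Fin m) : 4 ≤ rh a s i := by
  unfold rh
  rw [Int.le_ediv_iff_mul_le (by positivity)]
  have h1 := h.pos i
  have h2 : (4 : ℤ) ^ s ≤ 4 ^ (S + 3) := pow_le_pow_right₀ (by norm_num) hs
  have h3 : (4 : ℤ) ^ (S + 4) = 4 * 4 ^ (S + 3) := by rw [pow_succ]; ring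
  linarith

theorem rh_big {s k : ℕ} (hs : s + k ≤ S + 4) (i : Fin m) : (4 : ℤ) ^ k ≤ rh a s i := by
  unfold rh
  rw [Int.le_ediv_iff_mul_le (by positivity)]
  have h1 := h.pos i
  have h2 : (4 : ℤ) ^ (k + s) ≤ 4 ^ (S + 4) := pow_le_pow_right₀ (by norm_num) (by omega)
  rw [pow_add] at h2
  linarith

theorem a_pos (i : Fin m) : 4 ≤ a i := by
  have := h.rh_ge (s := 0) (by omega) i
  rwa [rh_zero] at this

theorem rh_le {s : ℕ} (i : Fin m) : rh a s i ≤ a i := by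
  unfold rh
  have h1 := h.a_pos i
  exact Int.ediv_le_self _ (by linarith)

theorem rh_nonneg {s : ℕ} (i : Fin m) : 0 ≤ rh a s i := by
  unfold rh
  have h1 := h.a_pos i
  positivity

theorem rh_anti {s : ℕ} (i : Fin m) : rh a (s + 1) i ≤ rh a s i := by
  have h1 := h.rh_nonneg (s := s) i
  rw [rh_succ]
  omega

theorem sg_ge {s : ℕ} (i : Fin m) : 2 * a i ≤ sg' a s i := by
  unfold sg'
  have h1 := h.a_pos i
  have h2 : (1 : ℤ) ≤ 4 ^ s := one_le_pow₀ (by norm_num)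
  nlinarith

theorem sg_top {s : ℕ} (hs : s ≤ S + 3) (i : Fin m) : 2 * sg' a s i ≤ R := by
  unfold sg'
  have h1 := h.a_pos i
  have h2 : (4 : ℤ) ^ s ≤ 4 ^ (S + 3) := pow_le_pow_right₀ (by norm_num) hs
  have h3 : (4 : ℤ) ^ (S + 4) = 4 * 4 ^ (S + 3) := by rw [pow_succ]; ring
  have h4 := h.top i
  rw [h3] at h4
  nlinarith

theorem gap {s : ℕ} (hs : s ≤ S + 3) {i j : Fin m} (hij : i < j) :
    sg' a s i + 2 ≤ rh a s j := by
  unfold sg' rh
  rw [Int.le_ediv_iff_mul_le (by positivity)]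
  have h1 := h.a_pos i
  have h2 : (4 : ℤ) ^ s ≤ 4 ^ (S + 3) := pow_le_pow_right₀ (by norm_num) hs
  have h3 := h.step i j hij
  have h5 : (4 : ℤ) ^ (2 * S + 8) = 16 * (4 ^ (S + 3) * 4 ^ (S + 3)) := by
    rw [← pow_add, show 2 * S + 8 = (S + 3 + (S + 3)) + 2 by ring, pow_add]
    norm_num
    ring
  rw [h5] at h3
  set x : ℤ := 4 ^ s with hx
  set y : ℤ := 4 ^ (S + 3) with hy
  have hx1 : 1 ≤ x := one_le_pow₀ (by norm_num)
  have h6 : (2 * a i * x + 2) * x ≤ 16 * (y * y) * a i := by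
    have h7 : x * x ≤ y * y := mul_le_mul h2 h2 (by linarith) (by linarith)
    have h8 : x ≤ y * y := by nlinarith
    nlinarith [mul_nonneg (by linarith : (0 : ℤ) ≤ a i) (by nlinarith : (0 : ℤ) ≤ y * y - x * x)]
  linarith

theorem zns {s : ℕ} (hs : s ≤ S + 2) : Zns R (rh a s) (sg' a s) where
  pos i := by have := h.rh_ge (s := s) (by omega) i; omega
  wid i := by
    have h1 := h.rh_le (s := s) i
    have h2 := h.sg_ge (s := s) i
    have h3 := h.a_pos i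
    omega
  step i j hij := h.gap (by omega) hij
  top i := by
    have h1 := h.sg_top (s := s) (by omega) i
    have h2 := h.sg_ge (s := s) i
    have h3 := h.a_pos i
    omega

theorem UU_sub (hF : Flt D b R) {s : ℕ} (hs : s ≤ S + 2) : UU b a s ⊆ D := by
  intro v hv
  obtain ⟨i, -, hi⟩ := mem_biUnion.1 hv
  exact Zg_sub hF (by have := (h.zns hs).top i; omega) hi

theorem UU_mono {s : ℕ} : UU b a s ⊆ UU b a (s + 1) := by
  intro v hv
  obtain ⟨i, -, hi⟩ := mem_biUnion.1 hv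
  refine mem_biUnion.2 ⟨i, mem_univ _, Zg_mono ?_ ?_ hi⟩
  · rw [rh_succ]
    have h1 : 0 ≤ rh a s i := by unfold rh; have := h.a_pos i; positivity
    omega
  · rw [sg_succ]
    have := h.sg_ge (s := s) i
    have := h.a_pos i
    omega

/-- The additional part of level `s + 1`. -/
theorem UU_step {s : ℕ} (i : Fin m) : Zg b (rh a (s + 1) i) (sg' a (s + 1) i) ⊆
    Zg b (rh a (s + 1) i) (rh a s i) ∪ (Zg b (rh a s i) (sg' a s i) ∪
      Zg b (sg' a s i) (sg' a (s + 1) i)) := by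
  intro v hv
  rw [mem_union, mem_union, mem_Zg, mem_Zg, mem_Zg]
  rw [mem_Zg] at hv
  have h1 := h.rh_le (s := s) i
  have h2 := h.sg_ge (s := s) i
  have h3 := h.a_pos i
  omega

end Lok

/-- The reference sites. -/
def zf (b : ℤ × ℤ) (a : Fin m → ℤ) (i : Fin m) : ℤ × ℤ := (b.1, b.2 + 2 * a i)

theorem zf_mem (h : Lok S R a) (s : ℕ) (i : Fin m) : zf b a i ∈ sites (Zg b (rh a s i) (sg' a s i)) := by
  have h1 := h.rh_le (s := s) i
  have h2 := h.sg_ge (s := s) i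
  have h3 := h.a_pos i
  rw [mem_sites]
  refine ⟨(b.1, b.2 + 2 * a i - 1), ?_, ?_, ?_⟩
  · rw [mem_Zg]; simp only; omega
  · left; rfl
  · right; show b.2 + 2 * a i = b.2 + 2 * a i - 1 + 1; ring

theorem vz_UU {s : ℕ} : Vz (UU b a s) A ↔ ∃ i, Vz (Zg b (rh a s i) (sg' a s i)) A := by
  unfold UU
  rw [vz_biUnion]
  constructor
  · rintro ⟨i, -, h⟩; exact ⟨i, h⟩
  · rintro ⟨i, h⟩; exact ⟨i, mem_univ _, h⟩

/-- A piece which avoids level `s` and visits level `s + 1`. -/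
theorem vz_step (h : Lok S R a) (h2 : ¬ Vz (UU b a s) A) (h3 : Vz (UU b a (s + 1)) A) :
    ∃ i, Vz (Zg b (rh a (s + 1) i) (rh a s i)) A ∨ Vz (Zg b (sg' a s i) (sg' a (s + 1) i)) A := by
  obtain ⟨i, h5⟩ := vz_UU.1 h3
  have h6 := Vz.mono' (h.UU_step i) h5
  rw [vz_union, vz_union] at h6
  rcases h6 with h6 | h6 | h6
  · exact ⟨i, Or.inl h6⟩
  · exact absurd (vz_UU.2 ⟨i, h6⟩) h2
  · exact ⟨i, Or.inr h6⟩

/-- The pieces of nontrivial weight surround `b`. -/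
theorem surr (hcls : S_cls) (hW : Win q D l R) (h : Lok S R a) (hs : s ≤ S + 2) (hv0 : v 0 = 1)
    (h1 : A ∈ pcs ω D) (h2 : ¬ Vz (UU (q l) a s) A) (h4 : v (clz q D (zf (q l) a) A) ≠ 1) :
    lo q A < l ∧ l ≤ hi q A := by
  classical
  have h5 : clz q D (zf (q l) a) A ≠ 0 := fun h6 => h4 (by rw [h6, hv0])
  unfold clz at h5
  obtain ⟨i, hi⟩ := card_pos.1 (Nat.pos_of_ne_zero h5)
  rw [mem_filter] at hi
  obtain ⟨j, hj, h6, h7⟩ := hcls n q D l R hW m (rh a s) (sg' a s) (h.zns hs) ω A h1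
    fun i' hi' => h2 (vz_UU.2 ⟨i', hi'⟩)
  have h8 := (h6 i (zf (q l) a i) (zf_mem h s i)).1 hi.2
  exact h7 (by omega)

theorem diam_in (hbig : S_big) (hW : Win q D l R) (h : Lok S R a) (hs : s ≤ S + 1) (i : Fin m)
    (h1 : A ∈ pcs ω D) (hs1 : lo q A < l) (hs2 : l ≤ hi q A)
    (hV : Vz (Zg (q l) (rh a (s + 1) i) (rh a s i)) A) :
    ∃ e1 ∈ A, ∃ e2 ∈ A, (rh a (s + 1) i : ℝ) / 4 ≤ (nm (hdv e1 - hdv e2) : ℝ) := by
  have h0 := h.rh_big (s := s + 1) (k := 2) (by omega) i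
  have hr := h.rh_le (s := s) i
  have hr0 := h.rh_anti (s := s) i
  have ht := h.sg_top (s := 0) (by omega) i
  rw [sg_zero] at ht
  have ha := h.a_pos i
  obtain ⟨e1, he1, e2, he2, h3⟩ := hbig n q D l R hW (rh a (s + 1) i) (rh a s i) ω (by omega) hr0
    (by omega) A h1 hs1 hs2 hV
  refine ⟨e1, he1, e2, he2, ?_⟩
  have h4 : (rh a (s + 1) i : ℝ) - 2 ≤ nm (hdv e1 - hdv e2) := by exact_mod_cast h3
  have h5 : (16 : ℝ) ≤ rh a (s + 1) i := by
    have : (16 : ℤ) ≤ rh a (s + 1) i := by omega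
    exact_mod_cast this
  linarith

theorem diam_out (hbig : S_big) (hW : Win q D l R) (h : Lok S R a) (hs : s ≤ S + 1) (i : Fin m)
    (h1 : A ∈ pcs ω D) (hs1 : lo q A < l) (hs2 : l ≤ hi q A)
    (hV : Vz (Zg (q l) (sg' a s i) (sg' a (s + 1) i)) A) :
    ∃ e1 ∈ A, ∃ e2 ∈ A, (sg' a s i : ℝ) / 4 ≤ (nm (hdv e1 - hdv e2) : ℝ) := by
  have h0 := h.rh_big (s := 0) (k := 3) (by omega) i
  rw [rh_zero] at h0
  have hg1 := h.sg_ge (s := s) i
  have ht := h.sg_top (s := s + 2) (by omega) i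
  have e4 : sg' a (s + 2) i = 4 * sg' a (s + 1) i := sg_succ i
  have e5 := sg_succ (a := a) (s := s) i
  obtain ⟨e1, he1, e2, he2, h3⟩ := hbig n q D l R hW (sg' a s i) (sg' a (s + 1) i) ω (by omega)
    (by omega) (by omega) A h1 hs1 hs2 hV
  refine ⟨e1, he1, e2, he2, ?_⟩
  have h4 : (sg' a s i : ℝ) - 2 ≤ nm (hdv e1 - hdv e2) := by exact_mod_cast h3
  have h5 : (16 : ℝ) ≤ sg' a s i := by
    have : (16 : ℤ) ≤ sg' a s i := by omega
    exact_mod_cast this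
  linarith

theorem zin_sub (hF : Flt D b R) (h : Lok S R a) (i : Fin m) :
    Zg b (rh a (s + 1) i) (rh a s i) ⊆ D := by
  have hr := h.rh_le (s := s) i
  have ht := h.sg_top (s := 0) (by omega) i
  rw [sg_zero] at ht
  have ha := h.a_pos i
  exact Zg_sub hF (by omega)

theorem zout_sub (hF : Flt D b R) (h : Lok S R a) (hs : s ≤ S + 2) (i : Fin m) :
    Zg b (sg' a s i) (sg' a (s + 1) i) ⊆ D := by
  have ht := h.sg_top (s := s + 1) (by omega) i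
  have ha := h.a_pos i
  have hg1 := h.sg_ge (s := s + 1) i
  exact Zg_sub hF (by omega)

/-- Counting the pieces of nontrivial weight between two levels. -/
theorem count_lev (hcls : S_cls) (hbig : S_big) (hW : Win q D l R) (h : Lok S R a)
    (hs : s ≤ S + 1) (hv0 : v 0 = 1) {N : Fin m → Bool → ℕ}
    (hN1 : ∀ i, MajA (Zg (q l) (rh a (s + 1) i) (rh a s i)) ((rh a (s + 1) i : ℝ) / 4) ω (N i false))
    (hN2 : ∀ i, MajA (Zg (q l) (sg' a s i) (sg' a (s + 1) i)) ((sg' a s i : ℝ) / 4) ω (N i true))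
    (𝓕 : Finset (Finset Ed)) (hF : ∀ A ∈ 𝓕, A ∈ pcs ω D ∧ ¬ Vz (UU (q l) a s) A ∧
      Vz (UU (q l) a (s + 1)) A ∧ v (clz q D (zf (q l) a) A) ≠ 1) :
    𝓕.card ≤ ∑ i, (N i false + N i true) := by
  classical
  have hcov : 𝓕 ⊆ univ.biUnion fun i : Fin m =>
      (𝓕.filter fun A => Vz (Zg (q l) (rh a (s + 1) i) (rh a s i)) A) ∪
      (𝓕.filter fun A => Vz (Zg (q l) (sg' a s i) (sg' a (s + 1) i)) A) := by
    intro A hA
    obtain ⟨h1, h2, h3, h4⟩ := hF A hA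
    obtain ⟨i, h6⟩ := vz_step h h2 h3
    refine mem_biUnion.2 ⟨i, mem_univ _, mem_union.2 ?_⟩
    rcases h6 with h6 | h6
    · exact Or.inl (mem_filter.2 ⟨hA, h6⟩)
    · exact Or.inr (mem_filter.2 ⟨hA, h6⟩)
  refine (card_le_card hcov).trans (card_biUnion_le.trans (Finset.sum_le_sum fun i _ =>
    (card_union_le _ _).trans (add_le_add ?_ ?_)))
  · refine card_le_maj (hN1 i) (zin_sub hW.flat h i) fun A hA => ?_
    obtain ⟨hA, hV⟩ := mem_filter.1 hA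
    obtain ⟨h1, h2, h3, h4⟩ := hF A hA
    obtain ⟨h5, h6⟩ := surr hcls hW h (by omega) hv0 h1 h2 h4
    exact ⟨h1, hV, diam_in hbig hW h hs i h1 h5 h6 hV⟩
  · refine card_le_maj (hN2 i) (zout_sub hW.flat h (by omega) i) fun A hA => ?_
    obtain ⟨hA, hV⟩ := mem_filter.1 hA
    obtain ⟨h1, h2, h3, h4⟩ := hF A hA
    obtain ⟨h5, h6⟩ := surr hcls hW h (by omega) hv0 h1 h2 h4
    exact ⟨h1, hV, diam_out hbig hW h hs i h1 h5 h6 hV⟩

end Vale.Agent.P167.H436.ND
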