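import Vale.Agent.P167.H436.ND.Cut2

/-!
# P167, general `q`, block Q-ND: large pieces which visit a half annulus (`s_zn`)
-/

namespace Vale.Agent.P167.H436.ND

open Finset MeasureTheory Vale.Agent.P167 Vale.Agent.P167.BR Vale.Agent.P167.FK
open Vale.Agent.P167.FKA (Loc Ind)
open Vale.Agent.P167.H562.QM (MajA FltQ OneC macro_B Nr)
open Vale.Agent.P167.H166 (bxx mem_bxx)

variable {D : Finset (ℤ × ℤ)} {η : Cfg} {b : ℤ × ℤ} {R : ℤ} {pl pr : Bool}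

theorem nm_le_iff {v : ℤ × ℤ} {r : ℤ} : nm v ≤ r ↔ -r ≤ v.1 ∧ v.1 ≤ r ∧ -r ≤ v.2 ∧ v.2 ≤ r := by
  unfold nm
  rw [max_le_iff, abs_le, abs_le]
  tauto

/-- From `FltO` to `FltQ`. -/
theorem FltO.fltQ (hF : Flt D b R) (h : FltO D η b R pl pr) : FltQ D η b (R - 1) pl pr where
  dom v hv := by
    rw [nm_le_iff] at hv
    simp only [Prod.fst_sub, Prod.snd_sub] at hv
    exact hF v (by omega) (by omega) (by omega) (by omega)
  out v hv h2 := by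
    rw [nm_le_iff] at hv
    simp only [Prod.fst_sub, Prod.snd_sub] at hv
    exact h.out v (by omega) (by omega) (by omega) h2

/-- The squares near a half annulus. -/
theorem near_zone (hF : Flt D b R) {ρ σ r1 r2 : ℤ} (h1 : 4 * r1 ≤ 3 * ρ) (h2 : 4 * σ + ρ + 4 ≤ 4 * r2)
    (h3 : r2 + 2 ≤ R) (hρσ : ρ ≤ σ) {v : ℤ × ℤ}
    (hv : Nr (Zg b ρ σ) (1 / 4 * (ρ : ℝ)) v) :
    nm (v - b) ≤ R - 1 ∧ (v ∈ D → v ∈ Zg b r1 r2) := by
  obtain ⟨u, hu, hvu⟩ := hv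
  have h4 : 4 * nm (v - u) ≤ ρ := by
    have : (4 : ℝ) * (nm (v - u) : ℝ) ≤ (ρ : ℝ) := by linarith
    exact_mod_cast this
  have h5 := nm_le_iff.1 (le_refl (nm (v - u)))
  simp only [Prod.fst_sub, Prod.snd_sub] at h5
  rw [mem_Zg] at hu
  have h6 : nm (v - b) ≤ R - 1 := by
    rw [nm_le_iff]
    simp only [Prod.fst_sub, Prod.snd_sub]
    omega
  refine ⟨h6, fun hvD => ?_⟩
  rw [nm_le_iff] at h6
  simp only [Prod.fst_sub, Prod.snd_sub] at h6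
  have h7 := (hF v (by omega) (by omega) (by omega) (by omega)).1 hvD
  rw [mem_Zg]
  omega

/-- **(ZN)** -/
theorem s_zn {Q : ℝ} (hQ : 1 ≤ Q) (hR : RSW Q) : S_zn Q := by
  intro s
  obtain ⟨ε, C, ρ0, -, hC, -, h⟩ := macro_B hQ hR (1 / 4) 5 s 0 (by norm_num) (by norm_num)
  have hQ0 : 0 < Q := by linarith
  refine ⟨max C 1, max 3 ⌈ρ0⌉, le_max_right _ _, fun b ρ σ hρ hρσ hσ => ?_⟩
  have hρ3 : 3 ≤ ρ := (le_max_left _ _).trans hρ
  have hρ0 : ρ0 ≤ ρ := by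
    have h1 : (⌈ρ0⌉ : ℤ) ≤ ρ := (le_max_right _ _).trans hρ
    exact (Int.le_ceil _).trans (by exact_mod_cast h1)
  obtain ⟨N, hN1, hN2, hN3⟩ := h (ρ : ℝ) hρ0 b (Zg b ρ σ) (fun v hv => by
    rw [mem_Zg] at hv
    have h1 : nm (v - b) ≤ 5 * ρ := by
      rw [nm_le_iff]
      simp only [Prod.fst_sub, Prod.snd_sub]
      omega
    exact_mod_cast h1) (fun i => i.elim0)
  refine ⟨N, fun ω => ?_, fun r1 r2 h1 h2 D η R pl pr hF hO h3 => ⟨?_, ?_⟩⟩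
  · have := hN2 ω
    rwa [show (1 / 4 : ℝ) * (ρ : ℝ) = (ρ : ℝ) / 4 by ring] at this
  · intro ω ω' hw hw'
    simp only
    rw [hN1 ω ω' fun v hv _ => ?_]
    by_cases hvD : v ∈ D
    · exact hw v ((near_zone hF h1 h2 h3 hρσ hv).2 hvD)
    · exact hw' v hvD
  · intro g hg0 hg
    have hg' := hN3 D η hO.good (fun y a ha hy => FltQ.oneC (FltO.fltQ hF hO) fun v hv =>
      (near_zone hF h1 h2 h3 hρσ (hy v hv)).1) g hg0 fun ω ω' hw => hg ω ω' fun v hv =>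
        hw v fun hv' => hv ((near_zone hF h1 h2 h3 hρσ hv'.2).2 hv'.1)
    exact hg'.trans (mul_le_mul_of_nonneg_right (le_max_left _ _)
      (FKA.Ex_nonneg hQ0 fun S _ => hg0 _))

end Vale.Agent.P167.H436.ND
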