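import Vale.Agent.P167.H436.ND.Rec
import Vale.Agent.P167.H436.ND.Bad
import Vale.Agent.P167.H436.ND.Zn

/-!
# P167, general `q`, block Q-ND: the general theorem (`s_mr`)
-/

namespace Vale.Agent.P167.H436.ND

open Finset MeasureTheory Vale.Agent.P167 Vale.Agent.P167.BR Vale.Agent.P167.FK
open Vale.Agent.P167.FKA (Loc Ind)
open Vale.Agent.P167.H562.QM (MajA ex_cs NbP)
open Vale.Agent.P167.H192.Q (SRSW)
open Vale.Agent.P167.H192.TA (Xc)

theorem lev_ar {t : ℕ} (ht : 6 ≤ t) : 4 * t + 21 ≤ 2 ^ t := by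
  induction t, ht using Nat.le_induction with
  | base => norm_num
  | succ t ht ih => rw [pow_succ]; omega

/-- The number of levels. -/
theorem exists_lev {K : ℤ} (hK : 2 ^ 64 ≤ K) : ∃ S : ℕ, Nat.log 2 K.toNat + 1 ≤ 2 ^ S ∧
    (4 : ℤ) ^ (2 * S + 8) ≤ K := by
  set L := Nat.log 2 K.toNat with hL
  have h64 : 64 ≤ L := by
    rw [hL]
    refine (Nat.le_log_iff_pow_le (by norm_num) (by omega)).2 ?_
    have : ((2 ^ 64 : ℕ) : ℤ) ≤ K := by push_cast; exact hK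
    omega
  set t := Nat.log 2 (L + 1) with ht
  have ht6 : 6 ≤ t := by
    rw [ht]
    exact (Nat.le_log_iff_pow_le (by norm_num) (by omega)).2 (by norm_num; omega)
  have h1 : 2 ^ t ≤ L + 1 := Nat.pow_log_le_self 2 (by omega)
  have h2 : L + 1 < 2 ^ (t + 1) := Nat.lt_pow_succ_log_self (by norm_num) _
  have h3 := lev_ar ht6
  refine ⟨t + 1, h2.le, ?_⟩
  have h4 : 2 ^ L ≤ K.toNat := Nat.pow_log_le_self 2 (by omega)
  have h5 : (2 : ℕ) ^ (4 * t + 20) ≤ 2 ^ L := Nat.pow_le_pow_right (by norm_num) (by omega)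
  have h6 : ((2 ^ (4 * t + 20) : ℕ) : ℤ) ≤ K := by
    have := h5.trans h4
    omega
  have h7 : (4 : ℤ) ^ (2 * (t + 1) + 8) = ((2 ^ (4 * t + 20) : ℕ) : ℤ) := by
    push_cast
    rw [show (4 : ℤ) = 2 ^ 2 by norm_num, ← pow_mul]
    congr 1
    ring
  rw [h7]
  exact h6

theorem exists_K {C δ α : ℝ} (hC : 0 < C) (hδ : 0 < δ) (hα : 0 < α) : ∃ K1 : ℤ, 4 ≤ K1 ∧
    ∀ K : ℤ, K1 ≤ K → C * (2 / (K : ℝ)) ^ α ≤ δ := by
  refine ⟨max 4 ⌈2 * (C / δ) ^ (1 / α)⌉, le_max_left _ _, fun K hK => ?_⟩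
  have h4 : (4 : ℤ) ≤ K := (le_max_left _ _).trans hK
  have h4' : (4 : ℝ) ≤ K := by exact_mod_cast h4
  have h1 : 2 * (C / δ) ^ (1 / α) ≤ (K : ℝ) :=
    (Int.le_ceil _).trans (by exact_mod_cast (le_max_right _ _).trans hK)
  have hx : 0 < (C / δ) ^ (1 / α) := Real.rpow_pos_of_pos (by positivity) _
  have h2 : 2 / (K : ℝ) ≤ ((C / δ) ^ (1 / α))⁻¹ := by
    rw [div_le_iff₀ (by linarith), inv_mul_eq_div, le_div_iff₀ hx]
    exact h1
  have h3 : (2 / (K : ℝ)) ^ α ≤ (((C / δ) ^ (1 / α))⁻¹) ^ α :=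
    Real.rpow_le_rpow (by positivity) h2 hα.le
  rw [Real.inv_rpow hx.le, ← Real.rpow_mul (by positivity), one_div_mul_cancel hα.ne', Real.rpow_one,
    inv_div] at h3
  calc C * (2 / (K : ℝ)) ^ α ≤ C * (δ / C) := mul_le_mul_of_nonneg_left h3 hC.le
    _ = δ := by field_simp

theorem rpow_lev {M B : ℝ} (hM : 1 ≤ M) (hB : 1 ≤ B) {k S : ℕ} (hk : k ≤ 2 ^ S) :
    (M * B ^ k) ^ ((1 / 2 : ℝ) ^ S) ≤ M * B := by
  rcases Nat.eq_zero_or_pos k with h0 | h0
  · rw [h0, pow_zero, mul_one]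
    calc M ^ ((1 / 2 : ℝ) ^ S) ≤ M ^ (1 : ℝ) := by
          refine Real.rpow_le_rpow_of_exponent_le hM ?_
          exact pow_le_one₀ (by norm_num) (by norm_num)
      _ = M := Real.rpow_one M
      _ ≤ M * B := by nlinarith
  have hMB : 1 ≤ M * B := by nlinarith
  have h1 : M * B ^ k ≤ (M * B) ^ k := by
    rw [mul_pow]
    exact mul_le_mul_of_nonneg_right (le_self_pow₀ hM (by omega)) (by positivity)
  calc (M * B ^ k) ^ ((1 / 2 : ℝ) ^ S) ≤ ((M * B) ^ k) ^ ((1 / 2 : ℝ) ^ S) :=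
        Real.rpow_le_rpow (by positivity) h1 (by positivity)
    _ = (M * B) ^ ((k : ℝ) * (1 / 2 : ℝ) ^ S) := by
        rw [Real.rpow_mul (by positivity), Real.rpow_natCast]
    _ ≤ (M * B) ^ (1 : ℝ) := by
        refine Real.rpow_le_rpow_of_exponent_le hMB ?_
        have h2 : (k : ℝ) ≤ 2 ^ S := by exact_mod_cast hk
        rw [one_div, inv_pow, ← div_eq_mul_inv, div_le_one (by positivity)]
        exact h2
    _ = M * B := Real.rpow_one _

/-- **(MR)** -/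
theorem s_mr {θ : ℝ} {P : Measure Cfg} (hQ : 1 ≤ 2 * Real.cos θ) (hR : RSW (2 * Real.cos θ))
    (hS : SRSW (2 * Real.cos θ)) (hcls : S_cls) (hbig : S_big) (hgap : S_gap) (hstay : S_stay)
    (hY : S_Y θ P) (htop : S_top (2 * Real.cos θ)) : S_MR θ P := by
  classical
  intro m vs M C1 Cm hm hvs hM hC1 hCm
  have hQ0 : 0 < 2 * Real.cos θ := by linarith
  obtain ⟨CY, aY, hCY, hY⟩ := hY Cm M hCm hM
  obtain ⟨Mr, r₀, hMr, hr₀, href⟩ := ref_abs hQ hcls hbig (s_zn hQ hR) m hvs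
  obtain ⟨B, hB, htop⟩ := htop m vs hvs
  obtain ⟨α, CX, hα, hCX, hbad⟩ := bad_all hQ hS hgap hstay m
  set Γ : ℝ := Real.sqrt (Mr * (Mr * B)) with hΓ
  have hΓ0 : 0 < Γ := Real.sqrt_pos.2 (by positivity)
  set C2 : ℝ := Γ * Real.sqrt (CY ^ m) with hC2
  have hC20 : 0 < C2 := mul_pos hΓ0 (Real.sqrt_pos.2 (by positivity))
  set δ : ℝ := min (1 / 2) ((1 / (8 * C1 ^ 2 * C2)) ^ 2 / C2) with hδ
  have hδ0 : 0 < δ := lt_min (by norm_num) (by positivity)
  obtain ⟨K1, hK1, hK1'⟩ := exists_K hCX hδ0 hα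
  refine ⟨max (2 ^ 64) K1, by norm_num, fun K hK => ?_⟩
  have hK64 : (2 : ℤ) ^ 64 ≤ K := (le_max_left _ _).trans hK
  have hKK1 : K1 ≤ K := (le_max_right _ _).trans hK
  obtain ⟨S, hS1, hS2⟩ := exists_lev hK64
  obtain ⟨at', htop⟩ := htop K (by linarith [hK64, show (16 : ℤ) ≤ 2 ^ 64 by norm_num])
  set L := Nat.log 2 K.toNat with hL
  refine ⟨1 / (8 * C1 * C2), C1 * Real.sqrt C2 * B ^ (L + 1),
    max (max (4 ^ (S + 4)) (r₀ * 4 ^ (S + 1))) (max aY at'), by positivity, ?_⟩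
  intro v hv0 hv1 hv2 hvm n q D l R η pl pr hW hO a hScl haK hgr f hf τ hτ X hX
  -- the scales
  have hp1 : ∀ i, (4 : ℤ) ^ (S + 4) ≤ a i := fun i =>
    ((le_max_left _ _).trans (le_max_left _ _)).trans (hScl.pos i)
  have hp2 : ∀ i, r₀ * 4 ^ (S + 1) ≤ a i := fun i =>
    ((le_max_right _ _).trans (le_max_left _ _)).trans (hScl.pos i)
  have hp3 : ∀ i, aY ≤ a i := fun i => ((le_max_left _ _).trans (le_max_right _ _)).trans (hScl.pos i)
  have hp4 : ∀ i, at' ≤ a i := fun i => ((le_max_right _ _).trans (le_max_right _ _)).trans (hScl.pos i)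
  have hp0 : ∀ i, 0 ≤ a i := fun i => le_trans (by positivity) (hp1 i)
  have h48 : (4 : ℤ) ^ (S + 4) ≤ K := (pow_le_pow_right₀ (by norm_num) (by omega)).trans hS2
  have hLok : Lok S R a :=
    { pos := hp1
      step := fun i j hij => (mul_le_mul_of_nonneg_right hS2 (hp0 i)).trans (hScl.step i j hij)
      top := fun i => (mul_le_mul_of_nonneg_right h48 (hp0 i)).trans (haK i) }
  have hScl' : Scl at' K R a := ⟨hp4, hScl.step, hScl.top⟩
  -- the reference weight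
  set b := q l with hb
  set V : Cfg → ℝ := Vc v q D (zf b a) (UU b a 0) with hV
  set V1 : Cfg → ℝ := Vc v q D (zf b a) (UU b a 1) with hV1
  have hV1le : ∀ ω, 1 ≤ V ω := fun ω => Vc_one_le hv1
  have hV0 : ∀ ω, 0 ≤ V ω := fun ω => zero_le_one.trans (hV1le ω)
  set A : ℝ := Ex (2 * Real.cos θ) D η V with hA
  have hA1 : 1 ≤ A := by
    calc (1 : ℝ) = Ex (2 * Real.cos θ) D η (fun _ => 1) := (FKA.Ex_const hQ0 1).symm
      _ ≤ _ := FKA.Ex_mono hQ0 fun _ _ => hV1le _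
  have htop' := htop v hv0 hv1 hv2 hvm n q D l R η pl pr hW hO a hScl' haK hgr
  have hAle : A ≤ B ^ (L + 1) := by
    refine le_trans (FKA.Ex_mono hQ0 fun S _ => ?_) htop'
    have := hV1le (cf D η S)
    show V _ ≤ V _ ^ 2
    nlinarith
  -- the moments
  have hYi := fun i => hY b (a i) (hp3 i)
  choose N hN1 hN2 using hYi
  have h8 : ∀ i, 8 * a i ≤ R := hScl.top
  have hYi2 := fun i => hN2 i D η R pl pr hW.flat hO (h8 i) (f i) (hf i) (τ i) (hτ i)
  set ga : Fin m → ℝ := fun i => Real.exp (-(Real.tan θ * (τ i * NbP P (kp * a i)))) with hga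
  set g : ℝ := ∏ i, ga i with hg
  have hgE : g = Real.exp (-Ex0 θ P τ a) := by
    rw [hg, hga]
    simp only
    rw [← Real.exp_sum]
    congr 1
    unfold Ex0
    rw [Finset.sum_neg_distrib, Finset.mul_sum]
  have hg0 : 0 < g := by rw [hgE]; exact Real.exp_pos _
  set Zs : Fin m → Finset (ℤ × ℤ) := fun i => Zg b (a i / 2) (3 * a i) with hZs
  have hZD : ∀ i, Zs i ⊆ D := fun i => Zg_sub hW.flat (by
    have := h8 i; have := hLok.a_pos i; omega)
  have hZU : ∀ i, Zs i ⊆ UU b a 1 := by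
    intro i w hw
    refine mem_biUnion.2 ⟨i, mem_univ _, Zg_mono ?_ ?_ hw⟩
    · rw [rh_succ, rh_zero]; have := hLok.a_pos i; omega
    · rw [sg_succ, sg_zero]; have := hLok.a_pos i; omega
  have hdis : ∀ i j, i ≠ j → Disjoint (Zs i) (Zs j) := by
    have key : ∀ i j, i < j → Disjoint (Zs i) (Zs j) := by
      intro i j hij
      refine Zg_disj ?_
      have h1 := hScl.step i j hij
      have h2 := hLok.a_pos i
      have h3 : (16 : ℤ) * a i ≤ K * a i := mul_le_mul_of_nonneg_right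
        (by linarith [hK64, show (16 : ℤ) ≤ 2 ^ 64 by norm_num]) (hp0 i)
      omega
    intro i j hij
    rcases lt_or_gt_of_ne hij with h | h
    · exact key i j h
    · exact (key j i h).symm
  have hV1ind : ∀ i, Ind (Zs i) V1 := fun i =>
    FKA.Ind.mono (hZU i) (Vc_ind (hLok.UU_sub hW.flat (by omega)))
  have hV10 : ∀ ω, 0 ≤ V1 ω := fun ω => zero_le_one.trans (Vc_one_le hv1)
  set Yp : Cfg → ℝ := fun ω => ∏ i, Yu θ M (τ i) (f i) (a i) (N i ω) ω with hYp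
  set Ym : Cfg → ℝ := fun ω => ∏ i, Yl θ M (τ i) (f i) b (a i) (N i ω) ω with hYm
  have hYu0 : ∀ i ω, 0 ≤ Yu θ M (τ i) (f i) (a i) (N i ω) ω := fun i ω => by
    unfold Yu; positivity
  have hYl0 : ∀ i ω, 0 ≤ Yl θ M (τ i) (f i) b (a i) (N i ω) ω := fun i ω => by
    unfold Yl; positivity
  have hE1 : 0 ≤ Ex (2 * Real.cos θ) D η V1 := FKA.Ex_nonneg hQ0 fun _ _ => hV10 _
  have hga0 : ∀ i, 0 < ga i := fun i => Real.exp_pos _
  have hga4 : ∀ i, Real.exp (-(4 * (Real.tan θ * (τ i * NbP P (kp * a i))))) = ga i ^ 4 := by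
    intro i
    simp only [hga]
    rw [← Real.exp_nat_mul]
    congr 1
    push_cast
    ring
  have hga2 : ∀ i, Real.exp (2 * (Real.tan θ * (τ i * NbP P (kp * a i)))) = ((ga i)⁻¹) ^ 2 := by
    intro i
    simp only [hga]
    rw [← Real.exp_neg, ← Real.exp_nat_mul]
    congr 1
    push_cast
    ring
  have mom4 : Ex (2 * Real.cos θ) D η (fun ω => V1 ω * (Yp ω ^ 2) ^ 2) ≤
      (Real.sqrt (CY ^ m) * g ^ 2) ^ 2 * Ex (2 * Real.cos θ) D η V1 := by
    have h1 := prod_ind (Q := 2 * Real.cos θ) (D := D) (η := η) (Finset.univ : Finset (Fin m))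
      (F := fun i ω => Yu θ M (τ i) (f i) (a i) (N i ω) ω ^ 4) (S := Zs) (c := fun i => CY * ga i ^ 4)
      (fun i _ => by have := hga0 i; positivity) (fun i _ => hZD i)
      (fun i _ ω => by have := hYu0 i ω; positivity)
      (fun i _ ω ω' h1 h2 => by
        have := (hYi2 i).1 ω ω' h1 h2
        simp only at this ⊢
        rw [this])
      (fun i _ j _ hij => hdis i j hij)
      (fun i _ G hG0 hG => by
        have := ((hYi2 i).2.2 G hG0 hG).1
        rwa [hga4] at this) hV10 (fun i _ => hV1ind i)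
    have e1 : (Real.sqrt (CY ^ m) * g ^ 2) ^ 2 = ∏ i : Fin m, CY * ga i ^ 4 := by
      rw [mul_pow, Real.sq_sqrt (by positivity), Finset.prod_mul_distrib, Finset.prod_const,
        Finset.card_univ, Fintype.card_fin, hg, Finset.prod_pow, ← pow_mul]
    rw [e1]
    refine le_trans (le_of_eq ?_) h1
    refine FKA.Ex_congr fun S _ => ?_
    rw [hYp]
    simp only
    rw [← pow_mul, ← Finset.prod_pow]
  have mom2 : Ex (2 * Real.cos θ) D η (fun ω => V1 ω * Ym ω ^ 2) ≤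
      (Real.sqrt (CY ^ m) * g⁻¹) ^ 2 * Ex (2 * Real.cos θ) D η V1 := by
    have h1 := prod_ind (Q := 2 * Real.cos θ) (D := D) (η := η) (Finset.univ : Finset (Fin m))
      (F := fun i ω => Yl θ M (τ i) (f i) b (a i) (N i ω) ω ^ 2) (S := Zs)
      (c := fun i => CY * ((ga i)⁻¹) ^ 2)
      (fun i _ => by have := hga0 i; positivity) (fun i _ => hZD i)
      (fun i _ ω => by have := hYl0 i ω; positivity)
      (fun i _ ω ω' h1 h2 => by
        have := (hYi2 i).2.1 ω ω' h1 h2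
        simp only at this ⊢
        rw [this])
      (fun i _ j _ hij => hdis i j hij)
      (fun i _ G hG0 hG => by
        have := ((hYi2 i).2.2 G hG0 hG).2
        rwa [hga2] at this) hV10 (fun i _ => hV1ind i)
    have e1 : (Real.sqrt (CY ^ m) * g⁻¹) ^ 2 = ∏ i : Fin m, CY * ((ga i)⁻¹) ^ 2 := by
      rw [mul_pow, Real.sq_sqrt (by positivity), Finset.prod_mul_distrib, Finset.prod_const,
        Finset.card_univ, Fintype.card_fin, hg, Finset.prod_pow, Finset.prod_inv_distrib]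
    rw [e1]
    refine le_trans (le_of_eq ?_) h1
    refine FKA.Ex_congr fun S _ => ?_
    rw [hYm]
    simp only
    rw [← Finset.prod_pow]
  -- the reference bounds
  have hfac : Real.sqrt (Mr * (Mr * B ^ (L + 1)) ^ ((1 / 2 : ℝ) ^ S)) ≤ Γ := by
    refine Real.sqrt_le_sqrt ?_
    exact mul_le_mul_of_nonneg_left (rpow_lev hMr hB hS1) (by linarith)
  have hYm0 : ∀ ω, 0 ≤ Ym ω := fun ω => Finset.prod_nonneg fun i _ => hYl0 i ω
  have hA0 : 0 ≤ A := by linarith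
  have m1 : Ex (2 * Real.cos θ) D η (fun ω => V ω * Yp ω ^ 2) ≤ C2 * g ^ 2 * A := by
    have h1 := href S R a hLok hp2 n q D l η pl pr hW hO v hv0 hv1 hv2 _ htop' (fun ω => Yp ω ^ 2)
      (Real.sqrt (CY ^ m) * g ^ 2) (fun ω => sq_nonneg _) (by positivity) mom4
    refine h1.trans ?_
    have h2 : Real.sqrt (Mr * (Mr * B ^ (L + 1)) ^ ((1 / 2 : ℝ) ^ S)) * (Real.sqrt (CY ^ m) * g ^ 2) ≤
        C2 * g ^ 2 := by
      rw [hC2, mul_assoc]
      exact mul_le_mul_of_nonneg_right hfac (by positivity)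
    exact mul_le_mul_of_nonneg_right h2 hA0
  have m2 : Ex (2 * Real.cos θ) D η (fun ω => V ω * Ym ω) ≤ C2 / g * A := by
    have h1 := href S R a hLok hp2 n q D l η pl pr hW hO v hv0 hv1 hv2 _ htop' Ym
      (Real.sqrt (CY ^ m) * g⁻¹) hYm0 (by positivity) mom2
    refine h1.trans ?_
    have h2 : Real.sqrt (Mr * (Mr * B ^ (L + 1)) ^ ((1 / 2 : ℝ) ^ S)) * (Real.sqrt (CY ^ m) * g⁻¹) ≤
        C2 / g := by
      have e : C2 / g = Γ * (Real.sqrt (CY ^ m) * g⁻¹) := by rw [hC2]; ring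
      rw [e]
      exact mul_le_mul_of_nonneg_right hfac (by positivity)
    exact mul_le_mul_of_nonneg_right h2 hA0
  -- the bad events
  have hb1 := hbad S R a hLok K (by linarith) hScl.step n q D l η hW hO.good v hv0 hv1
  have hε := hK1' K hKK1
  have hK0 : (0 : ℝ) < K := by
    have : (0 : ℤ) < K := by linarith
    exact_mod_cast this
  have hε0 : 0 ≤ CX * (2 / (K : ℝ)) ^ α := by positivity
  have hts := two_sided (Q := 2 * Real.cos θ) (D := D) (η := η) (V := V) (Yp := Yp) (Ym := Ym) (X := X)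
    (Bad := BadS b a) (C1 := C1) (C2 := C2) (g := g) (A := A) (ε := CX * (2 / (K : ℝ)) ^ α)
    hQ0 hV0 hYm0 hC1 hC20 hg0 rfl (by linarith)
    (fun S hS => (hX S hS (fun i => N i (cf D η S)) fun i => hN1 i _).1)
    (fun S hS hbd => (hX S hS (fun i => N i (cf D η S)) fun i => hN1 i _).2
      fun i j hij hx => hbd ⟨i, j, hij, hx⟩) m1 m2 hε0 (hε.trans (min_le_left _ _)) hb1
  have hEg : g * Real.exp (Ex0 θ P τ a) = 1 := by
    rw [hgE, ← Real.exp_add]; simp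
  have hexp : 0 < Real.exp (Ex0 θ P τ a) := Real.exp_pos _
  have hc1 : C1 * Real.sqrt (C2 * (CX * (2 / (K : ℝ)) ^ α)) ≤ 1 / (8 * C1 * C2) := by
    have h1 : C2 * (CX * (2 / (K : ℝ)) ^ α) ≤ (1 / (8 * C1 ^ 2 * C2)) ^ 2 := by
      have h2 := hε.trans (min_le_right _ _)
      rw [le_div_iff₀ hC20] at h2
      linarith
    have h3 : Real.sqrt (C2 * (CX * (2 / (K : ℝ)) ^ α)) ≤ 1 / (8 * C1 ^ 2 * C2) := by
      rw [← Real.sqrt_sq (by positivity : (0 : ℝ) ≤ 1 / (8 * C1 ^ 2 * C2))]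
      exact Real.sqrt_le_sqrt h1
    calc C1 * Real.sqrt (C2 * (CX * (2 / (K : ℝ)) ^ α)) ≤ C1 * (1 / (8 * C1 ^ 2 * C2)) :=
          mul_le_mul_of_nonneg_left h3 hC1.le
      _ = 1 / (8 * C1 * C2) := by field_simp
  have hc2 : 1 / (8 * C1 * C2) ≤ 1 / (4 * C1 * C2) -
      C1 * Real.sqrt (C2 * (CX * (2 / (K : ℝ)) ^ α)) := by
    have e : 1 / (4 * C1 * C2) = 1 / (8 * C1 * C2) + 1 / (8 * C1 * C2) := by
      field_simp
      norm_num
    linarith
  have hc0 : 0 < 1 / (8 * C1 * C2) := by positivity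
  constructor
  · have h1 : 1 / (8 * C1 * C2) * (g * A) ≤ Ex (2 * Real.cos θ) D η X :=
      (mul_le_mul_of_nonneg_right hc2 (by positivity)).trans hts.1
    have h2 : 1 / (8 * C1 * C2) * g ≤ 1 / (8 * C1 * C2) * (g * A) := by
      refine mul_le_mul_of_nonneg_left ?_ hc0.le
      nlinarith
    calc 1 / (8 * C1 * C2) = 1 / (8 * C1 * C2) * g * Real.exp (Ex0 θ P τ a) := by
          rw [mul_assoc (1 / (8 * C1 * C2)), hEg, mul_one]
      _ ≤ _ := mul_le_mul_of_nonneg_right (h2.trans h1) hexp.le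
  · have h1 : Ex (2 * Real.cos θ) D η X ≤ C1 * Real.sqrt C2 * (g * B ^ (L + 1)) :=
      hts.2.trans (mul_le_mul_of_nonneg_left (mul_le_mul_of_nonneg_left hAle hg0.le) (by positivity))
    calc Ex (2 * Real.cos θ) D η X * Real.exp (Ex0 θ P τ a) ≤
        C1 * Real.sqrt C2 * (g * B ^ (L + 1)) * Real.exp (Ex0 θ P τ a) :=
          mul_le_mul_of_nonneg_right h1 hexp.le
      _ = C1 * Real.sqrt C2 * B ^ (L + 1) * (g * Real.exp (Ex0 θ P τ a)) := by ring
      _ = C1 * Real.sqrt C2 * B ^ (L + 1) := by rw [hEg, mul_one]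

end Vale.Agent.P167.H436.ND
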