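import Vale.Agent.P167.H436.ND.Cut2
import Vale.Agent.P167.H640.ND.SymX
import Vale.Agent.P167.CAQ.J6

/-!
# P167, general `q`, block Q-ND: the outside configuration at the junction; movements
-/

namespace Vale.Agent.P167.H436.ND

open Finset Relation MeasureTheory Vale.Agent.P167 Vale.Agent.P167.BR Vale.Agent.P167.FK
open Vale.Agent.P145.FB (PStep)
open Vale.Agent.P167.FKA (Loc Ind)
open Vale.Agent.P167.E6 (IsPolygon Encloses dir face)
open Vale.Agent.P167.H718 (Dob Chordless etaW opW mem_opW OutC exists_bd good_etaW dob_etaW)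
open Vale.Agent.P167.QB (XG flat_side)
open Vale.Agent.P167.QX (XB lo hi wB)
open Vale.Agent.P167.H135 (Mov)
open Vale.Agent.P167.H640.ND (Mq poly_mov enc_mov dob_mov Ex_XG_mov mov_ce)

section

variable {n k : ℕ} {q : ZMod n → ℤ × ℤ} {D : Finset (ℤ × ℤ)} {R : ℤ} {η : Cfg}

/-- The quadrant below the side, on the right. -/
def Qd (b : ℤ × ℤ) (R : ℤ) (v : ℤ × ℤ) : Prop :=
  b.1 ≤ v.1 ∧ v.1 < b.1 + R ∧ b.2 - R ≤ v.2 ∧ v.2 < b.2

open Classical in
/-- The outside configuration near a junction. -/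
noncomputable def etaJ (D : Finset (ℤ × ℤ)) (q : ZMod n → ℤ × ℤ) (k : ℕ) (R : ℤ) : Cfg :=
  fun v => decide (v ∈ opW D q k ∨ Qd (q k) R v)

theorem good_etaJ : Good (etaJ D q k R) := by
  classical
  set T : Finset (ℤ × ℤ) := opW D q k ∪
    ((Finset.Icc ((q k).1 - |R|, (q k).2 - |R|) ((q k).1 + |R|, (q k).2 + |R|)).filter fun v =>
      Qd (q k) R v) with hT
  have h : etaJ D q k R = cf T eta0 T := by
    funext v
    unfold etaJ cf
    have hR := le_abs_self R
    have hR' := neg_abs_le R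
    by_cases hv : v ∈ T
    · rw [if_pos hv]
      have : v ∈ opW D q k ∨ Qd (q k) R v := by
        rw [hT, mem_union, mem_filter] at hv
        rcases hv with hv | hv
        · exact Or.inl hv
        · exact Or.inr hv.2
      simp [hv, this]
    · rw [if_neg hv]
      have : ¬ (v ∈ opW D q k ∨ Qd (q k) R v) := by
        intro h
        apply hv
        rw [hT, mem_union, mem_filter]
        rcases h with h | h
        · exact Or.inl h
        · refine Or.inr ⟨?_, h⟩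
          obtain ⟨h1, h2, h3, h4⟩ := h
          rw [mem_Icc, Prod.le_def, Prod.le_def]
          simp only
          omega
      simp [this, eta0]
  rw [h]
  exact good_cf _ good_eta0 _

theorem exists_fc {s t : ℤ × ℤ} (h1 : t.1 = s.1 + 1 ∨ t.1 = s.1 - 1)
    (h2 : t.2 = s.2 + 1 ∨ t.2 = s.2 - 1) : ∃ r, face s r = (min s.1 t.1, min s.2 t.2) := by
  obtain ⟨c, d⟩ := s
  obtain ⟨c', d'⟩ := t
  simp only at h1 h2
  have f0 : face (c, d) 0 = (c + 0, d + 0) := rfl
  have f1 : face (c, d) 1 = (c + -1, d + 0) := rfl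
  have f2 : face (c, d) 2 = (c + -1, d + -1) := rfl
  have f3 : face (c, d) 3 = (c + 0, d + -1) := rfl
  rcases h1 with h1 | h1 <;> rcases h2 with h2 | h2
  · exact ⟨0, by rw [f0]; simp only [Prod.mk.injEq]; omega⟩
  · exact ⟨3, by rw [f3]; simp only [Prod.mk.injEq]; omega⟩
  · exact ⟨1, by rw [f1]; simp only [Prod.mk.injEq]; omega⟩
  · exact ⟨2, by rw [f2]; simp only [Prod.mk.injEq]; omega⟩

/-- A site of the domain at the line of the window is a boundary site. -/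
theorem on_line (hW : Win q D k R) (hR : 2 ≤ R) {s : ℤ × ℤ} (hs : s ∈ sites D)
    (h1 : (q k).1 - R < s.1) (h2 : s.1 < (q k).1 + R) (h3 : (q k).2 - R < s.2)
    (h4 : s.2 ≤ (q k).2) :
    ∃ i : ℕ, (i : ℤ) = k + (s.1 - (q k).1) ∧ i < n ∧ q i = s := by
  have hr := flat_range hW.poly hW.enc hW.flat (by omega) hW.l1 hW.off
  obtain ⟨v, hv, h5, h6⟩ := mem_sites.1 hs
  have h7 := (hW.flat v (by omega) (by omega) (by omega) (by omega)).1 hv
  have h8 : s.2 = (q k).2 := by omega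
  obtain ⟨i, hi⟩ : ∃ i : ℕ, (i : ℤ) = k + (s.1 - (q k).1) :=
    ⟨(k + (s.1 - (q k).1)).toNat, Int.toNat_of_nonneg (by omega)⟩
  refine ⟨i, hi, by omega, ?_⟩
  have h9 := (flat_side hW.poly hW.enc hW.flat (by omega) hW.l1 hW.off (i := i)
    (by omega) (by omega)).1
  rw [h9]
  ext
  · simp only; omega
  · simp only; omega

/-- **The configuration at a junction.** -/
theorem jun_conf (hc : Chordless q) (hW : Win q D k R) (hR : 3 ≤ R) :
    Dob (etaJ D q k (R - 1)) D q k ∧ FltO D (etaJ D q k (R - 1)) (q k) (R - 1) false true := by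
  classical
  have hq := hW.poly
  have hD := hW.enc
  have hr := flat_range hW.poly hW.enc hW.flat (by omega) hW.l1 hW.off
  have hnz : NeZero n := ⟨by have := hq.1; omega⟩
  have hWb := dob_etaW (k := k) hq hD hc
  have hle : ∀ v, etaW D q k v = true → etaJ D q k (R - 1) v = true := by
    intro v hv
    unfold etaW at hv
    rw [decide_eq_true_iff] at hv
    unfold etaJ
    rw [decide_eq_true_iff]
    exact Or.inl hv
  constructor
  · refine ⟨good_etaJ, fun i j h1 h2 h3 h4 h5 h6 => ?_, ?_⟩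
    · have h7 := hWb.join i j h1 h2 h3 h4 h5 h6
      unfold OutC at h7 ⊢
      exact ReflTransGen.mono (fun s t hst => ⟨hst.1, hst.2.1, hle _ hst.2.2.1, hst.2.2.2⟩) _ _ h7
    · have hend : ∀ s t : ℤ × ℤ, s ∈ sites D → Even (s.1 + s.2) →
          PStep (op (etaJ D q k (R - 1)) ∩ (↑D : Set (ℤ × ℤ))ᶜ) s t →
          ∃ i : ℕ, k ≤ i ∧ i ≤ n ∧ q i = s := by
        intro s t hs hev hst
        obtain ⟨h1, h2, h3, h4⟩ := hst
        have h5 : etaJ D q k (R - 1) (min s.1 t.1, min s.2 t.2) = true := h3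
        have h6 : (min s.1 t.1, min s.2 t.2) ∉ D := h4
        unfold etaJ at h5
        rw [decide_eq_true_iff, mem_opW] at h5
        rcases h5 with h5 | h5
        · obtain ⟨⟨j, hj1, hj2, hj3, r, hr'⟩, -⟩ := h5
          obtain ⟨r', hr''⟩ := H718.step_cases (v := q j) (r := r) (s := s) (t := t) ⟨h1, h2, hr'⟩
            hev hj3
          obtain ⟨r2, hr2⟩ := exists_fc h1 h2
          obtain ⟨i, hi⟩ := exists_bd hq hD hs (r := r2) (by rw [hr2]; exact h6)
          rcases hc j i ⟨r', by rw [hi]; exact hr''⟩ with h7 | h7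
          · refine ⟨j + 1, by omega, by omega, ?_⟩
            push_cast
            rw [← h7]
            exact hi
          · refine ⟨j - 1, by omega, by omega, ?_⟩
            rw [Nat.cast_sub (by omega), Nat.cast_one, h7, add_sub_cancel_right]
            exact hi
        · obtain ⟨g1, g2, g3, g4⟩ := h5
          simp only at g1 g2 g3 g4
          obtain ⟨i, hi1, hi2, hi3⟩ := on_line hW (by omega) hs (by omega) (by omega) (by omega)
            (by omega)
          exact ⟨i, by omega, hi2.le, hi3⟩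
      intro s hs t ht hev hst hne
      have hevt : Even (t.1 + t.2) := by
        clear hne ht hs
        induction hst with
        | refl => exact hev
        | tail _ h1 ih => exact FK.even_step h1 ih
      have h1 : ∃ x, PStep (op (etaJ D q k (R - 1)) ∩ (↑D : Set (ℤ × ℤ))ᶜ) s x := by
        rcases ReflTransGen.cases_head hst with h | ⟨x, hx, -⟩
        · exact absurd h hne
        · exact ⟨x, hx⟩
      have h2 : ∃ x, PStep (op (etaJ D q k (R - 1)) ∩ (↑D : Set (ℤ × ℤ))ᶜ) t x := by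
        rcases ReflTransGen.cases_tail hst with h | ⟨x, -, hx⟩
        · exact absurd h.symm hne
        · exact ⟨x, hx.symm⟩
      obtain ⟨x, hx⟩ := h1
      obtain ⟨y, hy⟩ := h2
      obtain ⟨i, hi1, hi2, hi3⟩ := hend s x hs hev hx
      obtain ⟨j, hj1, hj2, hj3⟩ := hend t y ht hevt hy
      exact ⟨i, j, hi1, hi2, hj1, hj2, hi3, hj3⟩
  · refine ⟨good_etaJ, fun v h1 h2 h3 h4 => ?_⟩
    unfold etaJ
    by_cases h5 : v.1 < (q k).1
    · rw [if_pos h5, decide_eq_false_iff_not]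
      rintro (h6 | h6)
      · rw [mem_opW] at h6
        obtain ⟨⟨j, hj1, hj2, hj3, r, hr'⟩, h7⟩ := h6
        -- `q j` is a site of the domain
        have hqj : q j ∈ sites D := by
          have := be_mem hq hD (j : ZMod n)
          rcases be_sides hq (j : ZMod n) with ⟨h8, -⟩ | ⟨h8, -⟩
          · rw [← h8]; exact ls_mem_sites this
          · rw [← h8]; exact rs_mem_sites this
        have hcor : ((q j).1 = v.1 ∨ (q j).1 = v.1 + 1) ∧ ((q j).2 = v.2 ∨ (q j).2 = v.2 + 1) := by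
          rw [hr']
          generalize q (j : ZMod n) = w
          obtain ⟨c, d⟩ := w
          have f0 : face (c, d) 0 = (c + 0, d + 0) := rfl
          have f1 : face (c, d) 1 = (c + -1, d + 0) := rfl
          have f2 : face (c, d) 2 = (c + -1, d + -1) := rfl
          have f3 : face (c, d) 3 = (c + 0, d + -1) := rfl
          have hr4 : r = 0 ∨ r = 1 ∨ r = 2 ∨ r = 3 := by fin_cases r <;> simp
          rcases hr4 with rfl | rfl | rfl | rfl
          · rw [f0]; simp only; omega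
          · rw [f1]; simp only; omega
          · rw [f2]; simp only; omega
          · rw [f3]; simp only; omega
        obtain ⟨i, hi1, hi2, hi3⟩ := on_line hW (by omega) hqj (by omega) (by omega) (by omega)
          (by omega)
        have h9 := hq.2.1 hi3
        have h10 : i = j := by
          have e1 := congrArg ZMod.val h9
          rwa [ZMod.val_natCast_of_lt hi2, ZMod.val_natCast_of_lt hj2] at e1
        omega
      · obtain ⟨g1, -⟩ := h6
        omega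
    · rw [if_neg h5, decide_eq_true_iff]
      exact Or.inr ⟨by omega, by omega, by omega, h4⟩

/-- All closed outside: the free polygon. -/
theorem free_conf (hc : Chordless q) (hq : IsPolygon q) (hD : Encloses q D) (b : ℤ × ℤ) (R : ℤ) :
    Dob (etaW D q n) D q n ∧ FltO D (etaW D q n) b R false false := by
  classical
  refine ⟨dob_etaW hq hD hc, good_etaW, fun v _ _ _ _ => ?_⟩
  rw [ite_self]
  unfold etaW
  rw [decide_eq_false_iff_not, mem_opW]
  rintro ⟨⟨j, h1, h2, -⟩, -⟩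
  omega

theorem Win.mono {l : ℕ} {R' : ℤ} (h : Win q D l R) (hR : R' ≤ R) (h1 : 1 ≤ R') : Win q D l R' where
  poly := h.poly
  enc := h.enc
  flat v h1 h2 h3 h4 := h.flat v (by omega) (by omega) (by omega) (by omega)
  l1 := h.l1
  off h0 := by
    apply h.off
    rw [mem_sites_hbox (by omega)] at h0 ⊢
    omega

/-- The functional reads the squares of the domain only. -/
theorem loc_XG (θ : ℝ) (q : ZMod n → ℤ × ℤ) (D : Finset (ℤ × ℤ)) (k : ℕ) (f : ℤ × ℤ → ℝ) :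
    Loc D (XG θ q D k f) := by
  intro ω ω' h
  unfold XG QX.XB
  rw [pcs_congr h]

theorem chordless_mov (M : Mov) (h : Chordless q) : Chordless (Mq M q) := by
  rintro i j ⟨r, hr⟩
  obtain ⟨r', g1, g2, g3, g4⟩ := mov_ce M.symm (M.t (q i)) r
  refine h i j ⟨r', ?_⟩
  have e1 : M.symm.t (M.t (q i) + dir r) = M.symm.t (M.t (q i)) + dir r' := g2
  have e2 : M.t (q j) = M.t (q i) + dir r := hr
  rw [← e2] at e1
  simpa [Mov.symm] using e1

theorem Ft_mov (M : Mov) {m : ℕ} (τ : Fin m → ℝ) (f : Fin m → ℤ × ℤ → ℝ) :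
    M.F (Ft τ f 0) = Ft τ (fun i => M.F (f i)) 0 := by
  funext z
  simp [Mov.F, Ft]

end

/-! ### the two theorems for moved polygons -/

/-- The conclusion of `S_jun` with its constants. -/
def JunP (θ : ℝ) (P : Measure Cfg) (J : ℕ) (Cm : ℝ) (K : ℤ) (c C : ℝ) (a₀ : ℤ) : Prop :=
  ∀ (n : ℕ) (q : ZMod n → ℤ × ℤ) (D : Finset (ℤ × ℤ)) (k : ℕ) (R : ℤ) (η : Cfg), Win q D k R → 0 < k →
  Dob η D q k → FltO D η (q k) R false true →
  ∀ a : Fin (2 * J) → ℤ, Scl a₀ K R a → (∀ i, K * a i ≤ R) →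
    (∀ i j : Fin (2 * J), (i : ℕ) + 1 = j → (j : ℕ) ≠ J → a j ≤ 2 * K * a i) →
  ∀ f : Fin (2 * J) → ℤ × ℤ → ℝ, (∀ i, Bp Cm (q k) (a i) (f i)) →
    c ≤ Ex (2 * Real.cos θ) D η (XG θ q D k (Ft (tau2 J (Real.pi - 2 * θ)) f 0)) *
      Real.exp (Ex0 θ P (tau2 J (Real.pi - 2 * θ)) a) ∧
    Ex (2 * Real.cos θ) D η (XG θ q D k (Ft (tau2 J (Real.pi - 2 * θ)) f 0)) *
      Real.exp (Ex0 θ P (tau2 J (Real.pi - 2 * θ)) a) ≤ C

/-- The conclusion of `S_fre` with its constants. -/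
def FreP (θ : ℝ) (P : Measure Cfg) (J : ℕ) (Cm : ℝ) (K : ℤ) (c C : ℝ) (a₀ : ℤ) : Prop :=
  ∀ (n : ℕ) (q : ZMod n → ℤ × ℤ) (D : Finset (ℤ × ℤ)) (k l : ℕ) (R : ℤ) (η : Cfg), Win q D l R →
  (l : ℤ) + R ≤ k → k ≤ n → Dob η D q k → FltO D η (q l) R false false →
  ∀ a : Fin (2 * J) → ℤ, Scl a₀ K R a → (∀ i, K * a i ≤ R) →
    (∀ i j : Fin (2 * J), (i : ℕ) + 1 = j → (j : ℕ) ≠ J → a j ≤ 2 * K * a i) →
  ∀ f : Fin (2 * J) → ℤ × ℤ → ℝ, (∀ i, Bp Cm (q l) (a i) (f i)) →
    c ≤ Ex (2 * Real.cos θ) D η (XG θ q D k (Ft (tau2 J (-θ)) f 0)) *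
      Real.exp (Ex0 θ P (tau2 J (-θ)) a) ∧
    Ex (2 * Real.cos θ) D η (XG θ q D k (Ft (tau2 J (-θ)) f 0)) *
      Real.exp (Ex0 θ P (tau2 J (-θ)) a) ≤ C

section

variable {θ : ℝ} {P : Measure Cfg} {J : ℕ} {Cm : ℝ} {K : ℤ} {c C : ℝ} {a₀ : ℤ}
  {n k : ℕ} {q : ZMod n → ℤ × ℤ} {D : Finset (ℤ × ℤ)} {R : ℤ} {η : Cfg}

/-- **The junction, any movement, any outside configuration.** -/
theorem jun_M (hQ : 0 < 2 * Real.cos θ) (h : JunP θ P J Cm K c C a₀) (M : Mov) (hc : Chordless q)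
    (hq : IsPolygon q) (hW : Win (Mq M q) (M.S D) k R) (hR : 3 ≤ R) (hk : 0 < k)
    (hη : Dob η D q k) {a : Fin (2 * J) → ℤ} (ha : Scl a₀ K (R - 1) a) (haK : ∀ i, K * a i ≤ R - 1)
    (hgr : ∀ i j : Fin (2 * J), (i : ℕ) + 1 = j → (j : ℕ) ≠ J → a j ≤ 2 * K * a i)
    {f : Fin (2 * J) → ℤ × ℤ → ℝ} (hf : ∀ i, Bp Cm (M.t (q k)) (a i) (M.F (f i))) :
    c ≤ Ex (2 * Real.cos θ) D η (XG θ q D k (Ft (tau2 J (Real.pi - 2 * θ)) f 0)) *
      Real.exp (Ex0 θ P (tau2 J (Real.pi - 2 * θ)) a) ∧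
    Ex (2 * Real.cos θ) D η (XG θ q D k (Ft (tau2 J (Real.pi - 2 * θ)) f 0)) *
      Real.exp (Ex0 θ P (tau2 J (Real.pi - 2 * θ)) a) ≤ C := by
  obtain ⟨h1, h2⟩ := jun_conf (chordless_mov M hc) hW hR
  have h3 := h n (Mq M q) (M.S D) k (R - 1) _ (hW.mono (by omega) (by omega)) hk h1 h2 a ha haK hgr
    (fun i => M.F (f i)) hf
  have e : Ex (2 * Real.cos θ) (M.S D) (etaJ (M.S D) (Mq M q) k (R - 1))
      (XG θ (Mq M q) (M.S D) k (Ft (tau2 J (Real.pi - 2 * θ)) (fun i => M.F (f i)) 0)) =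
      Ex (2 * Real.cos θ) D η (XG θ q D k (Ft (tau2 J (Real.pi - 2 * θ)) f 0)) := by
    rw [CAQ.J.ex_dob hW.poly hW.enc hW.l1.le h1 (dob_mov M hη) hQ (loc_XG _ _ _ _ _), ← Ft_mov,
      Ex_XG_mov M _ θ hq]
  rw [e] at h3
  exact h3

/-- **The free polygon, any movement, any outside configuration.** -/
theorem fre_M {l : ℕ} (hQ : 0 < 2 * Real.cos θ) (h : FreP θ P J Cm K c C a₀) (M : Mov)
    (hc : Chordless q) (hq : IsPolygon q) (hW : Win (Mq M q) (M.S D) l R) (hR : 1 ≤ R)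
    (hη : Dob η D q n) {a : Fin (2 * J) → ℤ} (ha : Scl a₀ K R a) (haK : ∀ i, K * a i ≤ R)
    (hgr : ∀ i j : Fin (2 * J), (i : ℕ) + 1 = j → (j : ℕ) ≠ J → a j ≤ 2 * K * a i)
    {f : Fin (2 * J) → ℤ × ℤ → ℝ} (hf : ∀ i, Bp Cm (M.t (q l)) (a i) (M.F (f i))) :
    c ≤ Ex (2 * Real.cos θ) D η (XG θ q D n (Ft (tau2 J (-θ)) f 0)) *
      Real.exp (Ex0 θ P (tau2 J (-θ)) a) ∧
    Ex (2 * Real.cos θ) D η (XG θ q D n (Ft (tau2 J (-θ)) f 0)) *
      Real.exp (Ex0 θ P (tau2 J (-θ)) a) ≤ C := by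
  have hr := flat_range hW.poly hW.enc hW.flat hR hW.l1 hW.off
  obtain ⟨h1, h2⟩ := free_conf (chordless_mov M hc) hW.poly hW.enc (Mq M q l) R
  have h3 := h n (Mq M q) (M.S D) n l R _ hW (by omega) le_rfl h1 h2 a ha haK hgr
    (fun i => M.F (f i)) hf
  have e : Ex (2 * Real.cos θ) (M.S D) (etaW (M.S D) (Mq M q) n)
      (XG θ (Mq M q) (M.S D) n (Ft (tau2 J (-θ)) (fun i => M.F (f i)) 0)) =
      Ex (2 * Real.cos θ) D η (XG θ q D n (Ft (tau2 J (-θ)) f 0)) := by
    rw [CAQ.J.ex_dob hW.poly hW.enc le_rfl h1 (dob_mov M hη) hQ (loc_XG _ _ _ _ _), ← Ft_mov,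
      Ex_XG_mov M _ θ hq]
  rw [e] at h3
  exact h3

end

end Vale.Agent.P167.H436.ND
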