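import Vale.Agent.P167.H436.ND.Defs
import Vale.Agent.P167.H411.Q.Bump
import Vale.Agent.P167.H640.ND.FlatLat
import Vale.Agent.P167.H640.ND.SymX
import Vale.Agent.P167.H135.RotEnv
import Vale.Agent.P167.H542.Dat0
import Vale.Agent.P167.CAQ.Path

/-!
# P167, general `q`, block Q-ND: bumps at a flat boundary point of any direction
-/

namespace Vale.Agent.P167.H436.ND

open Set Metric Filter Topology MeasureTheory Vale.Agent.P167
open scoped ComplexConjugate ContDiff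
open Vale.Agent.P167.BR (sites Flt hbox)
open Vale.Agent.P167.BVP (Flat Test)
open Vale.Agent.P167.CA (Dat cms fs cs)
open Vale.Agent.P167.H411.B7 (Shp scb)
open Vale.Agent.P167.H411.Q (fb)
open Vale.Agent.P167.H135 (Mov rk rk0_t rk1_t rk2_t rk3_t rk0_s rk1_s rk2_s rk3_s)
open Vale.Agent.P167.H640.ND (nor flat_dom fin4_cases)
open Vale.Agent.P167.H167.Q (hpl)

/-- The movement which turns the domain at a side of direction `i` to the upper half-plane. -/
def mI : Fin 4 → Mov := ![rk 0, rk 3, rk 2, rk 1]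

theorem mI0_t (z : ℤ × ℤ) : (mI 0).t z = z := rk0_t z

theorem mI1_t (z : ℤ × ℤ) : (mI 1).t z = (z.2, -z.1) := rk3_t z

theorem mI2_t (z : ℤ × ℤ) : (mI 2).t z = (-z.1, -z.2) := rk2_t z

theorem mI3_t (z : ℤ × ℤ) : (mI 3).t z = (-z.2, z.1) := rk1_t z

theorem mI0_s (z : ℤ × ℤ) : (mI 0).s z = z := rk0_s z

theorem mI1_s (z : ℤ × ℤ) : (mI 1).s z = (z.2, -z.1 - 1) := rk3_s z

theorem mI2_s (z : ℤ × ℤ) : (mI 2).s z = (-z.1 - 1, -z.2 - 1) := rk2_s z

theorem mI3_s (z : ℤ × ℤ) : (mI 3).s z = (-z.2 - 1, z.1) := rk1_s z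

/-- The lattice point `b` is the one on the line near `c`. -/
structure NearB (i : Fin 4) (b c : ℤ × ℤ) : Prop where
  x : |b.1 - c.1| ≤ 2
  y : |b.2 - c.2| ≤ 2
  h : (i = 0 ∨ i = 2) → b.2 = c.2
  v : (i = 1 ∨ i = 3) → b.1 = c.1

/-- **The flat window in the moved lattice.** -/
theorem flt_M (S : Dat) {a ν : ℂ} {r : ℝ} (hF : Flat S.P a ν r) : ∃ i : Fin 4, ν = nor i ∧
    ∀ (n : ℕ), 0 < n → ∀ (R : ℤ) (b : ℤ × ℤ), 2 * ((R : ℝ) + 5) ≤ r * n → NearB i b (fs n a) →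
      Flt ((mI i).S (S.D n)) ((mI i).t b) R := by
  obtain ⟨i, hi, h⟩ := flat_dom S hF
  refine ⟨i, hi, fun n hn R b hR hb v h1 h2 h3 h4 => ?_⟩
  obtain ⟨hx, hy, hh, hv⟩ := hb
  rw [abs_le] at hx hy
  have hR' : 2 * (((R + 3 : ℤ) : ℝ) + 2) ≤ r * n := by push_cast; linarith
  obtain ⟨w, rfl⟩ := (mI i).s.surjective v
  rw [(mI i).mem_S]
  rcases fin4_cases i with rfl | rfl | rfl | rfl
  · have h5 := hh (Or.inl rfl)
    rw [mI0_t, mI0_s] at *
    rw [h n hn (R + 3) w hR' (by rw [abs_le]; omega) (by rw [abs_le]; omega)]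
    show (fs n a).2 ≤ w.2 ↔ _
    omega
  · have h5 := hv (Or.inl rfl)
    rw [mI1_t, mI1_s] at *
    simp only at h1 h2 h3 h4 ⊢
    rw [h n hn (R + 3) w hR' (by rw [abs_le]; omega) (by rw [abs_le]; omega)]
    show w.1 < (fs n a).1 ↔ _
    omega
  · have h5 := hh (Or.inr rfl)
    rw [mI2_t, mI2_s] at *
    simp only at h1 h2 h3 h4 ⊢
    rw [h n hn (R + 3) w hR' (by rw [abs_le]; omega) (by rw [abs_le]; omega)]
    show w.2 < (fs n a).2 ↔ _
    omega
  · have h5 := hv (Or.inr rfl)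
    rw [mI3_t, mI3_s] at *
    simp only at h1 h2 h3 h4 ⊢
    rw [h n hn (R + 3) w hR' (by rw [abs_le]; omega) (by rw [abs_le]; omega)]
    show (fs n a).1 ≤ w.1 ↔ _
    omega

theorem nm_mI (i : Fin 4) (x y : ℤ × ℤ) : nm ((mI i).t x - (mI i).t y) = nm (x - y) := by
  rcases fin4_cases i with rfl | rfl | rfl | rfl
  · rw [mI0_t, mI0_t]
  · rw [mI1_t, mI1_t]
    unfold nm
    simp only [Prod.fst_sub, Prod.snd_sub]
    rw [show -x.1 - -y.1 = -(x.1 - y.1) by ring, abs_neg, max_comm]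
  · rw [mI2_t, mI2_t]
    unfold nm
    simp only [Prod.fst_sub, Prod.snd_sub]
    rw [show -x.1 - -y.1 = -(x.1 - y.1) by ring, show -x.2 - -y.2 = -(x.2 - y.2) by ring, abs_neg,
      abs_neg]
  · rw [mI3_t, mI3_t]
    unfold nm
    simp only [Prod.fst_sub, Prod.snd_sub]
    rw [show -x.2 - -y.2 = -(x.2 - y.2) by ring, abs_neg, max_comm]

/-! ### the shape -/

/-- A shape concentrated near `3 i / 4`. -/
structure Sh0 (χ : ℂ → ℝ) : Prop where
  smooth : ContDiff ℝ ∞ χ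
  nonneg : ∀ u, 0 ≤ χ u
  mass : ∫ u, χ u = 1
  supp : tsupport χ ⊆ closedBall ((3 / 4 : ℝ) * Complex.I) (1 / 16)

theorem exists_sh0 : ∃ χ, Sh0 χ := by
  let f : ContDiffBump (((3 / 4 : ℝ) : ℂ) * Complex.I) := ⟨1 / 32, 1 / 16, by norm_num, by norm_num⟩
  refine ⟨f.normed volume, f.contDiff_normed, fun u => f.nonneg_normed u, f.integral_normed, ?_⟩
  rw [f.tsupport_normed_eq]

theorem Sh0.bds {χ : ℂ → ℝ} (h : Sh0 χ) {u : ℂ} (hu : u ∈ tsupport χ) :
    |u.re| ≤ 1 / 16 ∧ |u.im - 3 / 4| ≤ 1 / 16 := by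
  have h1 := h.supp hu
  rw [mem_closedBall, dist_eq_norm] at h1
  have h2 := (Complex.abs_re_le_norm _).trans h1
  have h3 := (Complex.abs_im_le_norm _).trans h1
  have e1 : (u - ((3 / 4 : ℝ) : ℂ) * Complex.I).re = u.re := by simp
  have e2 : (u - ((3 / 4 : ℝ) : ℂ) * Complex.I).im = u.im - 3 / 4 := by
    rw [Complex.sub_im, Complex.mul_im, Complex.ofReal_re, Complex.ofReal_im, Complex.I_re,
      Complex.I_im]
    ring
  rw [e1] at h2
  rw [e2] at h3
  exact ⟨h2, h3⟩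

theorem Sh0.shp {χ : ℂ → ℝ} (h : Sh0 χ) : Shp Complex.I χ where
  smooth := h.smooth
  supp u hu := by
    obtain ⟨h1, h2⟩ := h.bds hu
    rw [abs_le] at h1 h2
    constructor
    · rw [mem_closedBall_zero_iff]
      refine (Complex.norm_le_abs_re_add_abs_im _).trans ?_
      have : |u.re| ≤ 1 / 16 := abs_le.2 h1
      have h3 : |u.im| ≤ 13 / 16 := by rw [abs_le]; constructor <;> linarith
      linarith
    · show 0 < (u * conj Complex.I).re
      simp
      linarith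
  nonneg := h.nonneg
  mass := h.mass

/-- The multi-scale shape. -/
noncomputable def ms (J : ℕ) (κ : ℝ) (χ : ℂ → ℝ) (u : ℂ) : ℝ :=
  ∑ j ∈ Finset.range J, (1 / (J : ℝ)) * scb χ 0 (κ ^ j) u

theorem fb_ms (J : ℕ) (κ : ℝ) (χ : ℂ → ℝ) (ν c : ℂ) (η : ℝ) (z : ℂ) :
    fb (ms J κ χ) ν c η z = ∑ j ∈ Finset.range J, (1 / (J : ℝ)) * fb χ ν c (η * κ ^ j) z := by
  unfold fb ms scb
  rw [Finset.sum_div]
  refine Finset.sum_congr rfl fun j _ => ?_
  have e1 : Complex.I * conj ν * (z - c) / η / ((κ ^ j : ℝ) : ℂ) =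
      Complex.I * conj ν * (z - c) / ((η * κ ^ j : ℝ) : ℂ) := by
    rw [div_div]
    push_cast
    rfl
  have e2 : (η * κ ^ j) ^ 2 = (κ ^ j) ^ 2 * η ^ 2 := by ring
  rw [sub_zero, mul_div_assoc, e1, e2, div_div]

theorem scb_shp {χ : ℂ → ℝ} (h : Sh0 χ) {κ : ℝ} (hκ : 0 < κ) :
    ContDiff ℝ ∞ (scb χ 0 κ) ∧ (∀ z, 0 ≤ scb χ 0 κ z) ∧ ∫ z, scb χ 0 κ z = 1 ∧
      ∀ u, scb χ 0 κ u ≠ 0 → ‖u‖ ≤ κ ∧ κ / 2 ≤ u.im := by
  refine ⟨?_, fun z => div_nonneg (h.nonneg _) (by positivity), ?_, fun u hu => ?_⟩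
  · unfold scb
    exact (h.smooth.comp (by fun_prop)).div_const _
  · rw [H411.B7.scb_mass χ 0 hκ, h.mass]
  · have h1 : χ (u / κ) ≠ 0 := by
      intro h0
      apply hu
      unfold scb
      rw [sub_zero, h0, zero_div]
    obtain ⟨h2, h3⟩ := h.bds (subset_tsupport _ h1)
    have h4 := (h.shp.supp (subset_tsupport _ h1)).1
    rw [mem_closedBall_zero_iff, norm_div, Complex.norm_real, Real.norm_of_nonneg hκ.le,
      div_le_one hκ] at h4
    refine ⟨h4, ?_⟩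
    rw [abs_le, Complex.div_ofReal_im] at h3
    have h5 : 1 / 2 ≤ u.im / κ := by linarith [h3.1]
    rw [le_div_iff₀ hκ] at h5
    linarith

theorem ms_shp {χ : ℂ → ℝ} (h : Sh0 χ) {J : ℕ} (hJ : 0 < J) {κ : ℝ} (hκ : 0 < κ) (hκ1 : κ ≤ 1) :
    Shp Complex.I (ms J κ χ) := by
  have hJ' : (0 : ℝ) < J := by exact_mod_cast hJ
  have hk : ∀ j : ℕ, 0 < κ ^ j := fun j => pow_pos hκ j
  refine ⟨?_, ?_, fun z => ?_, ?_⟩
  · unfold ms
    exact ContDiff.sum fun j _ => contDiff_const.mul (scb_shp h (hk j)).1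
  · have hcl : IsClosed {u : ℂ | ‖u‖ ≤ 1 ∧ κ ^ J / 2 ≤ u.im} :=
      (isClosed_le continuous_norm continuous_const).inter
        (isClosed_le continuous_const Complex.continuous_im)
    have hsub : tsupport (ms J κ χ) ⊆ {u : ℂ | ‖u‖ ≤ 1 ∧ κ ^ J / 2 ≤ u.im} := by
      refine closure_minimal ?_ hcl
      intro u hu
      obtain ⟨j, hj, h1⟩ := Finset.exists_ne_zero_of_sum_ne_zero (hu : ms J κ χ u ≠ 0)
      have h2 : scb χ 0 (κ ^ j) u ≠ 0 := right_ne_zero_of_mul h1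
      obtain ⟨h3, h4⟩ := (scb_shp h (hk j)).2.2.2 u h2
      have h5 : κ ^ J ≤ κ ^ j := pow_le_pow_of_le_one hκ.le hκ1 (Finset.mem_range.1 hj).le
      exact ⟨h3.trans (pow_le_one₀ hκ.le hκ1), by linarith⟩
    intro u hu
    obtain ⟨h1, h2⟩ := hsub hu
    refine ⟨mem_closedBall_zero_iff.2 h1, ?_⟩
    show 0 < (u * conj Complex.I).re
    have : (u * conj Complex.I).re = u.im := by simp
    rw [this]
    have := hk J
    linarith
  · unfold ms
    exact Finset.sum_nonneg fun j _ => mul_nonneg (by positivity) ((scb_shp h (hk j)).2.1 z)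
  · unfold ms
    rw [integral_finsetSum]
    · have : ∀ j ∈ Finset.range J, ∫ u, (1 / (J : ℝ)) * scb χ 0 (κ ^ j) u = 1 / J := by
        intro j _
        rw [integral_const_mul, (scb_shp h (hk j)).2.2.1, mul_one]
      rw [Finset.sum_congr rfl this, Finset.sum_const, Finset.card_range, nsmul_eq_mul]
      field_simp
    · intro j _
      refine Integrable.const_mul ?_ _
      refine (scb_shp h (hk j)).1.continuous.integrable_of_hasCompactSupport ?_
      refine HasCompactSupport.of_support_subset_isCompact (isCompact_closedBall (0 : ℂ) (κ ^ j)) ?_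
      intro u hu
      exact mem_closedBall_zero_iff.2 ((scb_shp h (hk j)).2.2.2 u hu).1

/-! ### the bumps on the lattice -/

theorem u_nor (i : Fin 4) (w : ℂ) :
    (Complex.I * conj (nor i) * w).re = (![w.re, w.im, -w.re, -w.im] : Fin 4 → ℝ) i ∧
    (Complex.I * conj (nor i) * w).im = (![w.im, -w.re, -w.im, w.re] : Fin 4 → ℝ) i := by
  rcases fin4_cases i with rfl | rfl | rfl | rfl <;> simp [nor]

theorem sc_re (w : ℂ) {η : ℝ} : (w / η).re = w.re / η := Complex.div_ofReal_re w η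

theorem near_coord {x y t : ℝ} {z c : ℤ} (h1 : ⌊x⌋ = z - 1) (h2 : ⌊y⌋ = c) (h3 : t = x - y) :
    t < (z : ℝ) - c ∧ (z : ℝ) - c < t + 2 := by
  have a1 := Int.floor_le x
  have a2 := Int.lt_floor_add_one x
  have a3 := Int.floor_le y
  have a4 := Int.lt_floor_add_one y
  rw [h1] at a1 a2
  rw [h2] at a3 a4
  push_cast at a1 a2
  constructor <;> linarith

/-- **The bump at the flat point is a bump in the core of the ring.** -/
theorem bp_fb (S : Dat) {a : ℂ} {r : ℝ} {i : Fin 4} (hF : Flat S.P a (nor i) r) {χ : ℂ → ℝ}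
    (hχ : Sh0 χ) {M : ℝ} (hM : ∀ u, χ u ≤ M) {η : ℝ} (hη : 0 < η) (hr : η < r) {n : ℕ} (hn : 0 < n)
    {b : ℤ × ℤ} (hb : NearB i b (fs n a)) {A : ℤ} (hA : A = ⌊η * n / 2⌋) (h50 : 50 ≤ A) :
    Bp M ((mI i).t b) A ((mI i).F (cms (fb χ (nor i) a η) (1 / n))) := by
  have hn' : (0 : ℝ) < n := by exact_mod_cast hn
  have hA1 : (A : ℝ) ≤ η * n / 2 := by rw [hA]; exact Int.floor_le _
  have hA2 : η * n / 2 < A + 1 := by rw [hA]; exact Int.lt_floor_add_one _
  have hA0 : (50 : ℝ) ≤ A := by exact_mod_cast h50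
  have hbp := H411.Q.fb_bp hχ.shp hF hη hr
  have h0 : ∀ z, 0 ≤ cms (fb χ (nor i) a η) (1 / n) z := fun z =>
    integral_nonneg fun x => hbp.nonneg x
  refine ⟨fun z => h0 _, fun z => ?_, fun z hz => ?_, ?_⟩
  · have h1 : ∀ x, |fb χ (nor i) a η x| ≤ M / η ^ 2 := by
      intro x
      rw [abs_of_nonneg (hbp.nonneg x)]
      unfold fb
      gcongr
      exact hM _
    refine (le_abs_self _).trans ((Vale.Agent.P167.H542.Dt.cms_abs_le h1 hn _).trans ?_)
    have hM0 : 0 ≤ M := (hχ.nonneg 0).trans (hM 0)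
    rw [div_div, ← mul_pow]
    gcongr
    nlinarith
  · obtain ⟨w, rfl⟩ := (mI i).t.surjective z
    have hw : cms (fb χ (nor i) a η) (1 / n) w ≠ 0 := by
      have : (mI i).F (cms (fb χ (nor i) a η) (1 / n)) ((mI i).t w) =
        cms (fb χ (nor i) a η) (1 / n) w := by simp [Mov.F]
      rwa [this] at hz
    obtain ⟨x, hx, hfx⟩ := Vale.Agent.P167.H542.Dt.cms_ne hw
    rw [CA.mem_cl] at hx
    unfold CA.cs at hx
    have hx1 : ⌊x.re * n⌋ = w.1 - 1 := by rw [← hx]; simp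
    have hx2 : ⌊x.im * n⌋ = w.2 - 1 := by rw [← hx]; simp
    have hu : χ (Complex.I * conj (nor i) * (x - a) / η) ≠ 0 := by
      intro h1
      apply hfx
      unfold fb
      rw [h1, zero_div]
    obtain ⟨g1, g2⟩ := hχ.bds (subset_tsupport _ hu)
    rw [Complex.div_ofReal_re] at g1
    rw [Complex.div_ofReal_im] at g2
    obtain ⟨e1, e2⟩ := u_nor i (x - a)
    rw [e1] at g1
    rw [e2] at g2
    have k1 := near_coord (t := (x.re - a.re) * n) hx1 (y := a.re * n) (c := (fs n a).1) rfl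
      (by ring)
    have k2 := near_coord (t := (x.im - a.im) * n) hx2 (y := a.im * n) (c := (fs n a).2) rfl
      (by ring)
    obtain ⟨bx, bY, bh, bv⟩ := hb
    have bx' : |(b.1 : ℝ) - (fs n a).1| ≤ 2 := by exact_mod_cast bx
    have by' : |(b.2 : ℝ) - (fs n a).2| ≤ 2 := by exact_mod_cast bY
    rw [abs_le] at bx' by' g1 g2
    have hm : ∀ {t lo hi : ℝ}, lo ≤ t / η → t / η ≤ hi → lo * (η * n) ≤ t * n ∧
        t * n ≤ hi * (η * n) := by
      intro t lo hi h1 h2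
      rw [le_div_iff₀ hη] at h1
      rw [div_le_iff₀ hη] at h2
      constructor <;> nlinarith
    obtain ⟨m1, m2⟩ := hm g1.1 g1.2
    obtain ⟨m3, m4⟩ := hm (lo := 11 / 16) (hi := 13 / 16) (t := (![(x - a).im, -(x - a).re, -(x - a).im,
      (x - a).re] : Fin 4 → ℝ) i) (by linarith [g2.1]) (by linarith [g2.2])
    have goal : -(A : ℝ) ≤ 4 * ((((mI i).t w).1 : ℝ) - ((mI i).t b).1) ∧
        4 * ((((mI i).t w).1 : ℝ) - ((mI i).t b).1) ≤ A ∧
        5 * (A : ℝ) ≤ 4 * ((((mI i).t w).2 : ℝ) - ((mI i).t b).2) ∧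
        4 * ((((mI i).t w).2 : ℝ) - ((mI i).t b).2) ≤ 7 * A := by
      rcases fin4_cases i with rfl | rfl | rfl | rfl
      · have h5 : (b.2 : ℝ) = (fs n a).2 := by exact_mod_cast bh (Or.inl rfl)
        rw [mI0_t, mI0_t]
        simp at m1 m2 m3 m4
        refine ⟨?_, ?_, ?_, ?_⟩ <;> linarith
      · have h5 : (b.1 : ℝ) = (fs n a).1 := by exact_mod_cast bv (Or.inl rfl)
        rw [mI1_t, mI1_t]
        simp at m1 m2 m3 m4
        push_cast
        refine ⟨?_, ?_, ?_, ?_⟩ <;> linarith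
      · have h5 : (b.2 : ℝ) = (fs n a).2 := by exact_mod_cast bh (Or.inr rfl)
        rw [mI2_t, mI2_t]
        simp at m1 m2 m3 m4
        push_cast
        refine ⟨?_, ?_, ?_, ?_⟩ <;> linarith
      · have h5 : (b.1 : ℝ) = (fs n a).1 := by exact_mod_cast bv (Or.inr rfl)
        rw [mI3_t, mI3_t]
        simp at m1 m2 m3 m4
        push_cast
        refine ⟨?_, ?_, ?_, ?_⟩ <;> linarith
    obtain ⟨g1, g2, g3, g4⟩ := goal
    exact ⟨by exact_mod_cast g1, by exact_mod_cast g2, by exact_mod_cast g3, by exact_mod_cast g4⟩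
  · have h1 : ∑ᶠ z, (mI i).F (cms (fb χ (nor i) a η) (1 / n)) z =
        ∑ᶠ z, cms (fb χ (nor i) a η) (1 / n) z :=
      finsum_comp_equiv (mI i).t.symm
    rw [h1]
    have h2 := CA.sum_cms (Q := S.Q) hn (CA.Test.integrable hbp.test)
      (fun x hx => CA.Test.mem hbp.test hx) (fun _ => 1)
    simp only [mul_one] at h2
    rw [hbp.mass] at h2
    rw [finsum_eq_sum_of_support_subset _ (s := sites (CA.enl S.Q n)), h2]
    intro z hz
    exact CAQ.supp_cms hn hbp.test z hz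

end Vale.Agent.P167.H436.ND
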