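import Vale.Agent.P167.H436.ND.Nda2

/-!
# P167, general `q`, block Q-ND: the scales of the multi-scale bump
-/

namespace Vale.Agent.P167.H436.ND

open Set Metric Filter Topology MeasureTheory Vale.Agent.P167
open scoped ComplexConjugate ContDiff
open Vale.Agent.P167.BVP (Flat Test)
open Vale.Agent.P167.CA (Dat cms)
open Vale.Agent.P167.H411.B7 (Shp scb)
open Vale.Agent.P167.H411.Q (fb)

/-- The scales: `η κ ^ (J - 1), ..., η κ, η` and `η₀ κ ^ (J - 1), ..., η₀`. -/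
noncomputable def esc (J : ℕ) (κ η η₀ : ℝ) (i : ℕ) : ℝ :=
  if i < J then η * κ ^ (J - 1 - i) else η₀ * κ ^ (2 * J - 1 - i)

variable {J : ℕ} {κ η η₀ : ℝ}

theorem esc_pos (hκ : 0 < κ) (hη : 0 < η) (hη₀ : 0 < η₀) (i : ℕ) : 0 < esc J κ η η₀ i := by
  unfold esc
  split_ifs <;> positivity

theorem esc_mul {K : ℝ} (hK : 0 < K) (hκ : κ = 1 / (K + 1)) (hη : 0 < η) (h : η ≤ η₀ * κ ^ J)
    {i j : ℕ} (hij : i < j) (hj : j < 2 * J) : (K + 1) * esc J κ η η₀ i ≤ esc J κ η η₀ j := by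
  have hκ0 : 0 < κ := by rw [hκ]; positivity
  have hκ1 : κ ≤ 1 := by rw [hκ, div_le_one (by positivity)]; linarith
  have hκK : (K + 1) * κ = 1 := by rw [hκ]; field_simp
  have hη₀ : 0 < η₀ := by
    by_contra hcon
    have : η₀ * κ ^ J ≤ 0 := mul_nonpos_of_nonpos_of_nonneg (not_lt.1 hcon) (by positivity)
    linarith
  have key : ∀ (x : ℝ) (m m' : ℕ), 0 < x → m' < m → (K + 1) * (x * κ ^ m) ≤ x * κ ^ m' := by
    intro x m m' hx hm
    obtain ⟨d, rfl⟩ := Nat.exists_eq_add_of_lt hm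
    have e : (K + 1) * (x * κ ^ (m' + d + 1)) = x * κ ^ m' * κ ^ d * ((K + 1) * κ) := by ring
    rw [e, hκK, mul_one]
    exact mul_le_of_le_one_right (by positivity) (pow_le_one₀ hκ0.le hκ1)
  unfold esc
  split_ifs with h1 h2 h2
  · exact key η _ _ hη (by omega)
  · have h3 : η * κ ^ (J - 1 - i) ≤ η₀ * κ ^ J :=
      (mul_le_of_le_one_right hη.le (pow_le_one₀ hκ0.le hκ1)).trans h
    calc (K + 1) * (η * κ ^ (J - 1 - i)) ≤ (K + 1) * (η₀ * κ ^ J) := by gcongr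
      _ ≤ η₀ * κ ^ (J - 1) := key η₀ _ _ hη₀ (by omega)
      _ ≤ η₀ * κ ^ (2 * J - 1 - j) := by
        refine mul_le_mul_of_nonneg_left ?_ hη₀.le
        exact pow_le_pow_of_le_one hκ0.le hκ1 (by omega)
  · omega
  · exact key η₀ _ _ hη₀ (by omega)

theorem esc_grow {K : ℝ} (hK : 0 < K) (hκ : κ = 1 / (K + 1)) {i j : ℕ} (hij : i + 1 = j)
    (hj : j < 2 * J) (hJ : j ≠ J) : esc J κ η η₀ j = (K + 1) * esc J κ η η₀ i := by
  have hκK : (K + 1) * κ = 1 := by rw [hκ]; field_simp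
  unfold esc
  subst hij
  split_ifs with h1 h2 h2
  · obtain ⟨d, hd⟩ : ∃ d, J - 1 - i = d + 1 := ⟨J - 1 - i - 1, by omega⟩
    have hd' : J - 1 - (i + 1) = d := by omega
    rw [hd, hd', pow_succ]
    linear_combination (-(η * κ ^ d)) * hκK
  · omega
  · omega
  · obtain ⟨d, hd⟩ : ∃ d, 2 * J - 1 - i = d + 1 := ⟨2 * J - 1 - i - 1, by omega⟩
    have hd' : 2 * J - 1 - (i + 1) = d := by omega
    rw [hd, hd', pow_succ]
    linear_combination (-(η₀ * κ ^ d)) * hκK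

theorem esc_le_top (hκ : 0 < κ) (hκ1 : κ ≤ 1) (hη : 0 < η) (h : η ≤ η₀ * κ ^ J) (i : ℕ) :
    esc J κ η η₀ i ≤ η₀ := by
  have hη₀ : 0 < η₀ := by
    by_contra hcon
    have : η₀ * κ ^ J ≤ 0 := mul_nonpos_of_nonpos_of_nonneg (not_lt.1 hcon) (by positivity)
    linarith
  unfold esc
  split_ifs
  · calc η * κ ^ (J - 1 - i) ≤ η * 1 := by gcongr; exact pow_le_one₀ hκ.le hκ1
      _ ≤ η₀ * κ ^ J := by rw [mul_one]; exact h
      _ ≤ η₀ * 1 := by gcongr; exact pow_le_one₀ hκ.le hκ1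
      _ = η₀ := mul_one _
  · exact mul_le_of_le_one_right hη₀.le (pow_le_one₀ hκ.le hκ1)

/-- The lattice scales. -/
noncomputable def asc (J : ℕ) (κ η η₀ : ℝ) (n : ℕ) (i : Fin (2 * J)) : ℤ := ⌊esc J κ η η₀ i * n / 2⌋

theorem asc_bds (n : ℕ) (i : Fin (2 * J)) : (asc J κ η η₀ n i : ℝ) ≤ esc J κ η η₀ i * n / 2 ∧
    esc J κ η η₀ i * n / 2 < asc J κ η η₀ n i + 1 :=
  ⟨Int.floor_le _, Int.lt_floor_add_one _⟩

/-- **The scales are admissible.** -/
theorem asc_scl {K : ℤ} (hK : 4 ≤ K) (hκ : κ = 1 / ((K : ℝ) + 1)) (hη : 0 < η) (h : η ≤ η₀ * κ ^ J)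
    {a₀ R : ℤ} {n : ℕ} (hn : ((max a₀ 50 : ℤ) : ℝ) + 1 ≤ η * κ ^ J * n / 2)
    (hR : (K : ℝ) * η₀ * n ≤ R) : (∀ i, 50 ≤ asc J κ η η₀ n i) ∧ Scl a₀ K R (asc J κ η η₀ n) ∧
      (∀ i, K * asc J κ η η₀ n i ≤ R) ∧
      ∀ i j : Fin (2 * J), (i : ℕ) + 1 = j → (j : ℕ) ≠ J →
        asc J κ η η₀ n j ≤ 2 * K * asc J κ η η₀ n i := by
  have hK' : (4 : ℝ) ≤ K := by exact_mod_cast hK
  have hκ0 : 0 < κ := by rw [hκ]; positivity
  have hκ1 : κ ≤ 1 := by rw [hκ, div_le_one (by positivity)]; linarith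
  have hη₀ : 0 < η₀ := by
    by_contra hcon
    have : η₀ * κ ^ J ≤ 0 := mul_nonpos_of_nonpos_of_nonneg (not_lt.1 hcon) (by positivity)
    linarith
  have hle : η ≤ η₀ := h.trans (mul_le_of_le_one_right hη₀.le (pow_le_one₀ hκ0.le hκ1))
  have hn0 : (0 : ℝ) ≤ n := Nat.cast_nonneg n
  have hlow : ∀ i : Fin (2 * J), η * κ ^ J ≤ esc J κ η η₀ i := by
    intro i
    unfold esc
    split_ifs
    · refine mul_le_mul_of_nonneg_left ?_ hη.le
      exact pow_le_pow_of_le_one hκ0.le hκ1 (by omega)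
    · refine mul_le_mul hle ?_ (by positivity) hη₀.le
      exact pow_le_pow_of_le_one hκ0.le hκ1 (by omega)
  have hpos : ∀ i : Fin (2 * J), ((max a₀ 50 : ℤ) : ℝ) + 1 ≤ esc J κ η η₀ i * n / 2 := by
    intro i
    refine hn.trans ?_
    have := mul_le_mul_of_nonneg_right (hlow i) hn0
    linarith
  have hlo : ∀ i, max a₀ 50 ≤ asc J κ η η₀ n i := by
    intro i
    have h1 := hpos i
    have h2 := (asc_bds (κ := κ) (η := η) (η₀ := η₀) n i).2
    have h3 : ((max a₀ 50 : ℤ) : ℝ) < asc J κ η η₀ n i := by linarith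
    exact (by exact_mod_cast h3.le)
  have h50 : ∀ i, 50 ≤ asc J κ η η₀ n i := fun i => (le_max_right _ _).trans (hlo i)
  have htop : ∀ i, 2 * (asc J κ η η₀ n i : ℝ) ≤ η₀ * n := by
    intro i
    have h1 := (asc_bds (κ := κ) (η := η) (η₀ := η₀) n i).1
    have h2 := mul_le_mul_of_nonneg_right (esc_le_top hκ0 hκ1 hη h (i : ℕ)) hn0
    linarith
  refine ⟨h50, ⟨fun i => (le_max_left _ _).trans (hlo i), fun i j hij => ?_, fun i => ?_⟩,
    fun i => ?_, fun i j hij hj => ?_⟩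
  · have h1 := (asc_bds (κ := κ) (η := η) (η₀ := η₀) n i).1
    have h2 := (asc_bds (κ := κ) (η := η) (η₀ := η₀) n j).2
    have h3 := esc_mul (K := K) (by linarith) hκ hη h (i := i) (j := j) hij j.2
    have h4 := hpos i
    have h5 : (50 : ℝ) ≤ ((max a₀ 50 : ℤ) : ℝ) := by exact_mod_cast le_max_right a₀ 50
    have h6 := mul_le_mul_of_nonneg_right h3 hn0
    have h7 : (K : ℝ) * asc J κ η η₀ n i < asc J κ η η₀ n j := by nlinarith
    exact_mod_cast h7.le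
  · have h1 := htop i
    have h2 : (0 : ℝ) ≤ η₀ * n := by positivity
    have h3 : (8 : ℝ) * asc J κ η η₀ n i ≤ R := by nlinarith
    exact_mod_cast h3
  · have h1 := htop i
    have h2 : (0 : ℝ) ≤ η₀ * n := by positivity
    have h3 : (K : ℝ) * asc J κ η η₀ n i ≤ R := by nlinarith
    exact_mod_cast h3
  · have h1 := (asc_bds (κ := κ) (η := η) (η₀ := η₀) n j).1
    have h2 := (asc_bds (κ := κ) (η := η) (η₀ := η₀) n i).2
    have h3 := esc_grow (K := K) (η := η) (η₀ := η₀) (by linarith) hκ hij j.2 hj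
    rw [h3] at h1
    have h4 : (50 : ℝ) ≤ asc J κ η η₀ n i := by exact_mod_cast h50 i
    have h5 : (asc J κ η η₀ n j : ℝ) ≤ 2 * K * asc J κ η η₀ n i := by nlinarith
    exact_mod_cast h5

/-! ### linearity -/

theorem cms_sum {ι : Type*} (s : Finset ι) (g : ι → ℂ → ℝ) (c : ℝ) (hg : ∀ j ∈ s, Integrable (g j))
    (δ : ℝ) (z : ℤ × ℤ) : cms (fun w => ∑ j ∈ s, c * g j w) δ z = ∑ j ∈ s, c * cms (g j) δ z := by
  unfold cms
  rw [integral_finsetSum _ fun j hj => (hg j hj).integrableOn.const_mul c]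
  exact Finset.sum_congr rfl fun j _ => integral_const_mul _ _

theorem Ex0_mul (θ : ℝ) (P : Measure Cfg) (τ : ℝ) (a : Fin (2 * J) → ℤ) :
    Ex0 θ P (tau2 J τ) a = τ * Ex0 θ P (tau2 J 1) a := by
  unfold Ex0
  have h : ∑ i, tau2 J τ i * H562.QM.NbP P (kp * a i) =
      τ * ∑ i, tau2 J 1 i * H562.QM.NbP P (kp * a i) := by
    rw [Finset.mul_sum]
    refine Finset.sum_congr rfl fun i _ => ?_
    unfold tau2
    split_ifs <;> ring
  rw [h]
  ring

/-- **The lattice charge of the multi-scale bumps.** -/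
theorem cms_ms (S : Dat) {a : ℂ} {ν : ℂ} {r : ℝ} (hF : Flat S.P a ν r) {χ : ℂ → ℝ} (hχ : Sh0 χ)
    (hκ : 0 < κ) (hκ1 : κ ≤ 1) (hη : 0 < η) (h : η ≤ η₀ * κ ^ J) (hr : η₀ < r)
    (τ : ℝ) (n : ℕ) :
    cms (fun w => τ * (fb (ms J κ χ) ν a η w - fb (ms J κ χ) ν a η₀ w)) (1 / n) =
      Ft (tau2 J τ) (fun i => cms (fb χ ν a (esc J κ η η₀ i)) (1 / n)) 0 := by
  have hη₀ : 0 < η₀ := by
    by_contra hcon
    have : η₀ * κ ^ J ≤ 0 := mul_nonpos_of_nonpos_of_nonneg (not_lt.1 hcon) (by positivity)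
    linarith
  have hle : η ≤ η₀ := h.trans (mul_le_of_le_one_right hη₀.le (pow_le_one₀ hκ.le hκ1))
  have hi : ∀ (x : ℝ), 0 < x → x ≤ η₀ → ∀ j : ℕ, Integrable (fb χ ν a (x * κ ^ j)) := by
    intro x hx hx' j
    refine CA.Test.integrable (H411.Q.fb_bp hχ.shp hF (by positivity) ?_).test
    exact lt_of_le_of_lt ((mul_le_of_le_one_right hx.le (pow_le_one₀ hκ.le hκ1)).trans hx') hr
  have hI : ∀ (x : ℝ), 0 < x → x ≤ η₀ →
      Integrable (fun w => ∑ j ∈ Finset.range J, (1 / (J : ℝ)) * fb χ ν a (x * κ ^ j) w) := by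
    intro x hx hx'
    exact integrable_finsetSum _ fun j _ => (hi x hx hx' j).const_mul _
  funext z
  simp only [fb_ms]
  rw [CA.cms_smul, CA.cms_sub (hI η hη hle) (hI η₀ hη₀ le_rfl),
    cms_sum _ _ _ fun j _ => hi η hη hle j, cms_sum _ _ _ fun j _ => hi η₀ hη₀ le_rfl j]
  unfold Ft
  rw [Pi.zero_apply, add_zero]
  have e1 : ∑ i : Fin (2 * J), tau2 J τ i * cms (fb χ ν a (esc J κ η η₀ i)) (1 / n) z =
      ∑ i ∈ Finset.range (2 * J), (if i < J then τ / J else -(τ / J)) *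
        cms (fb χ ν a (esc J κ η η₀ i)) (1 / n) z := by
    rw [Finset.sum_range]
    rfl
  rw [e1, two_mul J, Finset.sum_range_add]
  have e2 : ∑ i ∈ Finset.range J, (if i < J then τ / J else -(τ / J)) *
        cms (fb χ ν a (esc J κ η η₀ i)) (1 / n) z =
      τ * ∑ j ∈ Finset.range J, (1 / (J : ℝ)) * cms (fb χ ν a (η * κ ^ j)) (1 / n) z := by
    rw [← Finset.sum_range_reflect (fun j => (1 / (J : ℝ)) * cms (fb χ ν a (η * κ ^ j)) (1 / n) z),
      Finset.mul_sum]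
    refine Finset.sum_congr rfl fun i hi => ?_
    rw [Finset.mem_range] at hi
    rw [if_pos hi]
    unfold esc
    rw [if_pos hi]
    ring
  have e3 : ∑ i ∈ Finset.range J, (if J + i < J then τ / J else -(τ / J)) *
        cms (fb χ ν a (esc J κ η η₀ (J + i))) (1 / n) z =
      -(τ * ∑ j ∈ Finset.range J, (1 / (J : ℝ)) * cms (fb χ ν a (η₀ * κ ^ j)) (1 / n) z) := by
    rw [← Finset.sum_range_reflect (fun j => (1 / (J : ℝ)) * cms (fb χ ν a (η₀ * κ ^ j)) (1 / n) z),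
      Finset.mul_sum, ← Finset.sum_neg_distrib]
    refine Finset.sum_congr rfl fun i hi => ?_
    rw [Finset.mem_range] at hi
    rw [if_neg (by omega)]
    unfold esc
    rw [if_neg (by omega), show 2 * J - 1 - (J + i) = J - 1 - i by omega]
    ring
  rw [e2, e3]
  ring

end Vale.Agent.P167.H436.ND
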