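import Vale.Agent.P167.H436.ND.Nda1
import Vale.Agent.P167.H436.ND.Nda3

/-!
# P167, general `q`, block Q-ND: the inputs `BdA` for the junction and for the free side
-/

namespace Vale.Agent.P167.H436.ND

open Set Metric Filter Topology MeasureTheory Vale.Agent.P167
open scoped ComplexConjugate ContDiff
open Vale.Agent.P167.BR (sites Flt hbox mem_sites_hbox)
open Vale.Agent.P167.BVP (Flat Test)
open Vale.Agent.P167.CA (Dat cms fs cs)
open Vale.Agent.P167.H411.B7 (Shp scb)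
open Vale.Agent.P167.H411.Q (fb VN BdA NDa)
open Vale.Agent.P167.H135 (Mov)
open Vale.Agent.P167.H640.ND (nor fin4_cases Mq poly_mov enc_mov dob_mov)
open Vale.Agent.P167.H718 (Dob Chordless)
open Vale.Agent.P167.E6 (IsPolygon Encloses)
open Vale.Agent.P167.QB (gB XG)
open Vale.Agent.P167.H542.Q (BD)

/-- The lattice point of the flat point `a` on the polygons of a family. -/
structure Jn {S : Dat} {θ β : ℝ} (X : BD S θ β) (a : ℂ) (i : Fin 4) (r : ℝ) (l : ℕ → ℕ) : Prop where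
  flat : Flat S.P a (nor i) r
  ch : ∀ᶠ n in X.L, Chordless (X.q n)
  lt : ∀ᶠ n in X.L, l n < X.N n
  near : ∀ᶠ n in X.L, NearB i (X.q n (l n)) (fs n a)
  off : ∀ᶠ n : ℕ in X.L, r * n / 4 ≤ nm (X.q n 0 - X.q n (l n))

theorem nor_inj {i j : Fin 4} (h : nor i = nor j) : i = j := by
  have h1 := congrArg Complex.re h
  have h2 := congrArg Complex.im h
  rcases fin4_cases i with rfl | rfl | rfl | rfl <;>
    rcases fin4_cases j with rfl | rfl | rfl | rfl <;> simp [nor] at h1 h2 ⊢ <;>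
    first | (norm_num at h1; done) | (norm_num at h2; done)

/-- **The window in the moved lattice.** -/
theorem Jn.win {S : Dat} {θ β : ℝ} {X : BD S θ β} {a : ℂ} {i : Fin 4} {r : ℝ} {l : ℕ → ℕ}
    (h : Jn X a i r l) : ∀ᶠ n : ℕ in X.L, ∀ R : ℤ, 1 ≤ R → (R : ℝ) + 5 ≤ r * n / 4 →
      Win (Mq (mI i) (X.q n)) ((mI i).S (S.D n)) (l n) R := by
  obtain ⟨j, hj, hflt⟩ := flt_M S h.flat
  have hij := nor_inj hj
  subst hij
  filter_upwards [h.lt, h.near, h.off, X.poly, X.enc, X.le (eventually_gt_atTop 0)] with n h1 h2 h3 h4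
    h5 hn R hR1 hR
  have hr0 : (1 : ℝ) ≤ R := by exact_mod_cast hR1
  refine ⟨poly_mov _ h4, enc_mov _ h5, hflt n hn R _ (by linarith) h2, h1, fun h0 => ?_⟩
  rw [mem_sites_hbox hR1] at h0
  have h6 : nm (Mq (mI i) (X.q n) 0 - Mq (mI i) (X.q n) (l n)) ≤ R := by
    unfold nm
    simp only [Prod.fst_sub, Prod.snd_sub]
    rw [max_le_iff, abs_le, abs_le]
    omega
  rw [show Mq (mI i) (X.q n) 0 = (mI i).t (X.q n 0) from rfl,
    show Mq (mI i) (X.q n) (l n) = (mI i).t (X.q n (l n)) from rfl, nm_mI] at h6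
  have h7 : (nm (X.q n 0 - X.q n (l n)) : ℝ) ≤ R := by exact_mod_cast h6
  linarith

/-- The scales eventually. -/
theorem ev_scl {r κ η : ℝ} {J : ℕ} {K : ℤ} (hK : 4 ≤ K) (hr : 0 < r) (hκ : κ = 1 / ((K : ℝ) + 1))
    (hη : 0 < η) (h : η ≤ r / (16 * K) * κ ^ J) (a₀ : ℤ) : ∀ᶠ n : ℕ in atTop,
      3 ≤ ⌊r * n / 4⌋ - 10 ∧
      (∀ i, 50 ≤ asc J κ η (r / (16 * K)) n i) ∧
      Scl a₀ K (⌊r * n / 4⌋ - 10 - 1) (asc J κ η (r / (16 * K)) n) ∧
      (∀ i, K * asc J κ η (r / (16 * K)) n i ≤ ⌊r * n / 4⌋ - 10 - 1) ∧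
      ∀ i j : Fin (2 * J), (i : ℕ) + 1 = j → (j : ℕ) ≠ J →
        asc J κ η (r / (16 * K)) n j ≤ 2 * K * asc J κ η (r / (16 * K)) n i := by
  have hK' : (4 : ℝ) ≤ K := by exact_mod_cast hK
  have hκ0 : 0 < κ := by rw [hκ]; positivity
  have t1 : Tendsto (fun n : ℕ => η * κ ^ J * n / 2) atTop atTop := by
    have : Tendsto (fun n : ℕ => (η * κ ^ J / 2) * (n : ℝ)) atTop atTop :=
      tendsto_natCast_atTop_atTop.const_mul_atTop (by positivity)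
    refine this.congr fun n => by ring
  have t2 : Tendsto (fun n : ℕ => r * (n : ℝ)) atTop atTop :=
    tendsto_natCast_atTop_atTop.const_mul_atTop hr
  filter_upwards [t1.eventually_ge_atTop (((max a₀ 50 : ℤ) : ℝ) + 1), t2.eventually_ge_atTop 70]
    with n h1 h2
  have f1 := Int.lt_floor_add_one (r * n / 4)
  have hR : (K : ℝ) * (r / (16 * K)) * n ≤ ((⌊r * n / 4⌋ - 10 - 1 : ℤ) : ℝ) := by
    have e : (K : ℝ) * (r / (16 * K)) * n = r * n / 16 := by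
      have : (K : ℝ) ≠ 0 := by positivity
      field_simp
    rw [e]
    push_cast
    linarith
  obtain ⟨g1, g2, g3, g4⟩ := asc_scl hK hκ hη h h1 hR
  refine ⟨?_, g1, g2, g3, g4⟩
  have : (3 : ℝ) ≤ ((⌊r * n / 4⌋ - 10 : ℤ) : ℝ) := by push_cast; linarith
  exact_mod_cast this

section

variable {S : Dat} {θ : ℝ} {P : Measure Cfg} {J : ℕ} {M : ℝ} {K : ℤ} {c C : ℝ} {a₀ : ℤ}
  {X : BD S θ (gB θ)} {a : ℂ} {i : Fin 4} {r : ℝ} {l : ℕ → ℕ} {χ : ℂ → ℝ} {κ : ℝ}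

/-- The compensation of the small loops. -/
noncomputable def Nc (θ : ℝ) (P : Measure Cfg) (J : ℕ) (κ η₀ : ℝ) (n : ℕ) (η : ℝ) : ℝ :=
  Ex0 θ P (tau2 J 1) (asc J κ η η₀ n)

/-- **(Q4) for the junction.** -/
theorem bdA_jun (h0 : 0 < θ) (h1 : θ ≤ Real.pi / 3)
    (hβ : Real.cos (θ / 2 + gB θ) = Real.sin θ) (hK : 4 ≤ K) (hc0 : 0 < c)
    (hJ : JunP θ P J M K c C a₀) (hX : Jn X a i r X.k) (hk : ∀ᶠ n in X.L, 0 < X.k n)
    (hχ : Sh0 χ) (hM : ∀ u, χ u ≤ M) (hr : 0 < r) (hκ : κ = 1 / ((K : ℝ) + 1)) :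
    BdA (Real.pi - 2 * θ) (X.famB h0 h1 hβ) (ms J κ χ) (nor i) a
      (fb (ms J κ χ) (nor i) a (r / (16 * K))) (Nc θ P J κ (r / (16 * K))) := by
  have hK' : (4 : ℝ) ≤ K := by exact_mod_cast hK
  have hκ0 : 0 < κ := by rw [hκ]; positivity
  have hκ1 : κ ≤ 1 := by rw [hκ, div_le_one (by positivity)]; linarith
  have hη₀ : 0 < r / (16 * K) := by positivity
  have hη₀r : r / (16 * K) < r := by
    rw [div_lt_iff₀ (by positivity)]
    nlinarith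
  have hQ : 0 < 2 * Real.cos θ := by
    have := Real.pi_pos
    have := Real.cos_pos_of_mem_Ioo (x := θ) ⟨by linarith, by linarith⟩
    linarith
  refine ⟨c, C, r / (16 * K) * κ ^ J, hc0, by positivity, fun η hη hη2 => ?_⟩
  have hev := ev_scl hK hr hκ hη hη2.le a₀
  show ∀ᶠ n in X.L, _
  filter_upwards [X.le hev, hX.win, hk, hX.ch, X.poly, X.dob, hX.near,
    X.le (eventually_gt_atTop 0)] with n ⟨g0, g1, g2, g3, g4⟩ hw hk' hch hpo hdo hnb hn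
  have hWin := hw (⌊r * n / 4⌋ - 10) (by omega) (by
    push_cast
    linarith [Int.floor_le (r * n / 4)])
  unfold VN Nc
  rw [H542.Q.BD.famB_V, cms_ms S hX.flat hχ hκ0 hκ1 hη hη2.le hη₀r, ← Ex0_mul]
  refine jun_M hQ hJ (mI i) hch hpo hWin g0 hk' hdo g2 g3 g4 fun j => ?_
  refine bp_fb S hX.flat hχ hM (esc_pos hκ0 hη hη₀ j) ?_ hn hnb rfl (g1 j)
  exact lt_of_le_of_lt (esc_le_top hκ0 hκ1 hη hη2.le j) hη₀r

/-- **(Q4c) for the free side.** -/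
theorem bdA_fre (h0 : 0 < θ) (h1 : θ ≤ Real.pi / 3)
    (hβ : Real.cos (θ / 2 + gB θ) = Real.sin θ) (hK : 4 ≤ K) (hc0 : 0 < c)
    (hJ : FreP θ P J M K c C a₀) (hX : Jn X a i r l) (hk : ∀ᶠ n in X.L, X.k n = X.N n)
    (hχ : Sh0 χ) (hM : ∀ u, χ u ≤ M) (hr : 0 < r) (hκ : κ = 1 / ((K : ℝ) + 1)) :
    BdA (-θ) (X.famB h0 h1 hβ) (ms J κ χ) (nor i) a
      (fb (ms J κ χ) (nor i) a (r / (16 * K))) (Nc θ P J κ (r / (16 * K))) := by
  have hK' : (4 : ℝ) ≤ K := by exact_mod_cast hK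
  have hκ0 : 0 < κ := by rw [hκ]; positivity
  have hκ1 : κ ≤ 1 := by rw [hκ, div_le_one (by positivity)]; linarith
  have hη₀ : 0 < r / (16 * K) := by positivity
  have hη₀r : r / (16 * K) < r := by
    rw [div_lt_iff₀ (by positivity)]
    nlinarith
  have hQ : 0 < 2 * Real.cos θ := by
    have := Real.pi_pos
    have := Real.cos_pos_of_mem_Ioo (x := θ) ⟨by linarith, by linarith⟩
    linarith
  refine ⟨c, C, r / (16 * K) * κ ^ J, hc0, by positivity, fun η hη hη2 => ?_⟩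
  have hev := ev_scl hK hr hκ hη hη2.le a₀
  show ∀ᶠ n in X.L, _
  filter_upwards [X.le hev, hX.win, hk, hX.ch, X.poly, X.dob, hX.near,
    X.le (eventually_gt_atTop 0)] with n ⟨g0, g1, g2, g3, g4⟩ hw hk' hch hpo hdo hnb hn
  have hWin := hw (⌊r * n / 4⌋ - 10 - 1) (by omega) (by
    push_cast
    linarith [Int.floor_le (r * n / 4)])
  unfold VN Nc
  rw [H542.Q.BD.famB_V, cms_ms S hX.flat hχ hκ0 hκ1 hη hη2.le hη₀r, ← Ex0_mul, hk']
  rw [hk'] at hdo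
  refine fre_M hQ hJ (mI i) hch hpo hWin (by omega) hdo g2 g3 g4 fun j => ?_
  refine bp_fb S hX.flat hχ hM (esc_pos hκ0 hη hη₀ j) ?_ hn hnb rfl (g1 j)
  exact lt_of_le_of_lt (esc_le_top hκ0 hκ1 hη hη2.le j) hη₀r

end

/-- **(NDa)** for two families of the same polygons. -/
theorem nda_of {S : Dat} {θ : ℝ} {P : Measure Cfg} (h0 : 0 < θ) (h1 : θ ≤ Real.pi / 3)
    (hβ : Real.cos (θ / 2 + gB θ) = Real.sin θ) (hj : S_jun θ P) (hf : S_fre θ P)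
    {X Y : BD S θ (gB θ)} {a ν : ℂ} {i : Fin 4} (hi : ν = nor i) {r : ℝ} (hr : 0 < r) {l : ℕ → ℕ}
    (hX : Jn X a i r X.k) (hk : ∀ᶠ n in X.L, 0 < X.k n)
    (hY : Jn Y a i r l) (hkY : ∀ᶠ n in Y.L, Y.k n = Y.N n) :
    NDa θ (X.famB h0 h1 hβ) (Y.famB h0 h1 hβ) a ν := by
  subst hi
  obtain ⟨J1, hJ1, g1⟩ := hj
  obtain ⟨J2, hJ2, g2⟩ := hf
  obtain ⟨χ, hχ⟩ := exists_sh0
  obtain ⟨M, hM0, hM⟩ : ∃ M : ℝ, 0 < M ∧ ∀ u, χ u ≤ M := by
    obtain ⟨M, hM⟩ := hχ.smooth.continuous.bounded_above_of_compact_support hχ.shp.compact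
    refine ⟨max M 1, by positivity, fun u => ?_⟩
    exact (le_abs_self _).trans ((hM u).trans (le_max_left _ _))
  obtain ⟨K1, hK1, g1'⟩ := g1 (max J1 J2) (le_max_left _ _) M hM0
  obtain ⟨K2, hK2, g2'⟩ := g2 (max J1 J2) (le_max_right _ _) M hM0
  obtain ⟨c1, C1, a1, hc1, hJun⟩ := g1' (max K1 K2) (le_max_left _ _)
  obtain ⟨c2, C2, a2, hc2, hFre⟩ := g2' (max K1 K2) (le_max_right _ _)
  have hK : 4 ≤ max K1 K2 := hK1.trans (le_max_left _ _)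
  have hK' : (4 : ℝ) ≤ ((max K1 K2 : ℤ) : ℝ) := by exact_mod_cast hK
  have hη₀r : r / (16 * ((max K1 K2 : ℤ) : ℝ)) < r := by
    rw [div_lt_iff₀ (by positivity)]
    nlinarith
  have hS := ms_shp hχ (J := max J1 J2) (by omega) (κ := 1 / (((max K1 K2 : ℤ) : ℝ) + 1))
    (by positivity) (by rw [div_le_one (by positivity)]; linarith)
  have hb := H411.Q.fb_bp hS hX.flat (η := r / (16 * ((max K1 K2 : ℤ) : ℝ))) (by positivity) hη₀r
  exact ⟨_, _, _, hS, hb.test, hb.mass,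
    bdA_jun h0 h1 hβ hK hc1 hJun hX hk hχ hM hr rfl,
    bdA_fre h0 h1 hβ hK hc2 hFre hY hkY hχ hM hr rfl⟩

end Vale.Agent.P167.H436.ND
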