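import Vale.Agent.P167.H436.ND.Nda4
import Vale.Agent.P167.XDL.EnlQ

/-!
# P167, general `q`, block Q-ND: the junction of the enlarged polygons
-/

namespace Vale.Agent.P167.H436.ND

open Set Metric Filter Topology MeasureTheory Vale.Agent.P167
open Vale.Agent.P167.H825 (pdir dirOf)
open Vale.Agent.P167.CA (Dat fs)
open Vale.Agent.P167.E6 (IsPolygon Encloses dir pt)
open Vale.Agent.P167.Enl (qN PN PN_lin qN_eq kOf kOf_add kOf_lt pdir_step)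
open Vale.Agent.P167.H640.ND (fin4_cases)

/-- The point at the position `ta` of the side `ia`. -/
noncomputable def jpt (S : Dat) (ia : ℕ) (ta : ℝ) : ℂ :=
  pt (S.p (ia : ZMod S.l)) + ta * pt (dir (pdir S.p ia))

theorem qN_kOf {l : ℕ} {p : ZMod l → ℤ × ℤ} {n t i σ : ℕ} (hn : 0 < n) (hi : i < l) (ht : t < n)
    (hσ : σ < n) : qN p n t ((kOf l n t i σ : ℕ) : ZMod (l * n)) =
      (n : ℤ) • p (i : ZMod l) + (σ : ℤ) • dir (pdir p i) := by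
  have : NeZero l := ⟨by omega⟩
  rw [qN_eq hn (kOf_add hi ht), PN_lin hn hσ]

theorem fl_lt {ta : ℝ} (h0 : 0 < ta) (h1 : ta < 1) {n : ℕ} (hn : 0 < n) : ⌊ta * n⌋₊ < n := by
  have hn' : (0 : ℝ) < n := by exact_mod_cast hn
  rw [Nat.floor_lt (by positivity)]
  nlinarith

theorem fl_add (x : ℤ) (n : ℕ) (y : ℝ) : ⌊((x : ℝ) + y) * n⌋ = n * x + ⌊y * n⌋ := by
  rw [show ((x : ℝ) + y) * n = ((n * x : ℤ) : ℝ) + y * n by push_cast; ring, Int.floor_intCast_add]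

theorem near_pt (z : ℤ × ℤ) (r : Fin 4) {ta : ℝ} (h0 : 0 < ta) {n : ℕ} (hn : 0 < n) :
    NearB r ((n : ℤ) • z + ((⌊ta * n⌋₊ : ℕ) : ℤ) • dir r) (fs n (pt z + ta * pt (dir r))) := by
  have hn' : (0 : ℝ) < n := by exact_mod_cast hn
  have hfl : ((⌊ta * n⌋₊ : ℕ) : ℤ) = ⌊ta * n⌋ := Int.natCast_floor_eq_floor (by positivity)
  have e1 : ∀ x : ℤ, ⌊(x : ℝ) * n⌋ = n * x := fun x => by
    rw [show (x : ℝ) * n = ((n * x : ℤ) : ℝ) by push_cast; ring, Int.floor_intCast]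
  have e2 : ∀ x : ℤ, ⌊((x : ℝ) + ta) * n⌋ = n * x + ⌊ta * n⌋₊ := fun x => by rw [fl_add, hfl]
  have e3 : ∀ x : ℤ, n * x - ⌊ta * n⌋₊ - 1 ≤ ⌊((x : ℝ) - ta) * n⌋ ∧
      ⌊((x : ℝ) - ta) * n⌋ ≤ n * x - ⌊ta * n⌋₊ := fun x => by
    rw [sub_eq_add_neg (x : ℝ) ta, fl_add, hfl]
    have a1 := Int.floor_le (ta * n)
    have a2 := Int.lt_floor_add_one (ta * n)
    have b1 : -⌊ta * (n : ℝ)⌋ - 1 ≤ ⌊-ta * (n : ℝ)⌋ := by
      rw [Int.le_floor]; push_cast; linarith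
    have b2 : ⌊-ta * (n : ℝ)⌋ ≤ -⌊ta * (n : ℝ)⌋ := by
      have := Int.floor_le (-ta * (n : ℝ))
      have h3 : ((⌊-ta * (n : ℝ)⌋ : ℤ) : ℝ) ≤ ((-⌊ta * (n : ℝ)⌋ : ℤ) : ℝ) := by
        push_cast; linarith
      exact_mod_cast h3
    omega
  obtain ⟨x, y⟩ := z
  have e3x := e3 x
  have e3y := e3 y
  have e2x := e2 x
  have e2y := e2 y
  have e1x := e1 x
  have e1y := e1 y
  rcases fin4_cases r with rfl | rfl | rfl | rfl
  · have h : fs n (pt (x, y) + ta * pt (dir 0)) = (⌊((x : ℝ) + ta) * n⌋, ⌊(y : ℝ) * n⌋) := by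
      simp [fs, pt, dir]
    rw [h]
    refine ⟨?_, ?_, fun _ => ?_, fun h => ?_⟩ <;> simp [dir] at *
    all_goals first | omega | (rw [abs_le]; omega)
  · have h : fs n (pt (x, y) + ta * pt (dir 1)) = (⌊(x : ℝ) * n⌋, ⌊((y : ℝ) + ta) * n⌋) := by
      simp [fs, pt, dir]
    rw [h]
    refine ⟨?_, ?_, fun h => ?_, fun _ => ?_⟩ <;> simp [dir] at *
    all_goals first | omega | (rw [abs_le]; omega)
  · have h : fs n (pt (x, y) + ta * pt (dir 2)) = (⌊((x : ℝ) - ta) * n⌋, ⌊(y : ℝ) * n⌋) := by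
      simp [fs, pt, dir, sub_eq_add_neg]
    rw [h]
    refine ⟨?_, ?_, fun _ => ?_, fun h => ?_⟩ <;> simp [dir] at *
    all_goals first | omega | (rw [abs_le]; omega)
  · have h : fs n (pt (x, y) + ta * pt (dir 3)) = (⌊(x : ℝ) * n⌋, ⌊((y : ℝ) - ta) * n⌋) := by
      simp [fs, pt, dir, sub_eq_add_neg]
    rw [h]
    refine ⟨?_, ?_, fun h => ?_, fun _ => ?_⟩ <;> simp [dir] at *
    all_goals first | omega | (rw [abs_le]; omega)

/-- **The junction on the lattice.** -/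
theorem near_kOf (S : Dat) {ia : ℕ} {ta : ℝ} (hi : ia < S.l) (h0 : 0 < ta) (h1 : ta < 1) {n : ℕ}
    (hn : 0 < n) {t : ℕ} (ht : t < n) :
    NearB (pdir S.p ia) (qN S.p n t ((kOf S.l n t ia ⌊ta * n⌋₊ : ℕ) : ZMod (S.l * n)))
      (fs n (jpt S ia ta)) := by
  rw [qN_kOf hn hi ht (fl_lt h0 h1 hn)]
  exact near_pt _ _ h0 hn

theorem norm_pt_le (z : ℤ × ℤ) : ‖pt z‖ ≤ 2 * (nm z : ℝ) := by
  refine (Complex.norm_le_abs_re_add_abs_im _).trans ?_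
  have h1 : |(pt z).re| ≤ (nm z : ℝ) := by
    show |(z.1 : ℝ)| ≤ _
    exact_mod_cast (le_max_left |z.1| |z.2| : |z.1| ≤ nm z)
  have h2 : |(pt z).im| ≤ (nm z : ℝ) := by
    show |(z.2 : ℝ)| ≤ _
    exact_mod_cast (le_max_right |z.1| |z.2| : |z.2| ≤ nm z)
  linarith

theorem pt_sub (z w : ℤ × ℤ) : pt (z - w) = pt z - pt w := by
  apply Complex.ext <;> simp [pt]

theorem norm_pt_dir (r : Fin 4) : ‖pt (dir r)‖ ≤ 1 := by
  rcases fin4_cases r with rfl | rfl | rfl | rfl <;>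
    refine (Complex.norm_le_abs_re_add_abs_im _).trans ?_ <;> simp [pt, dir]

theorem pt_near (z : ℤ × ℤ) (r : Fin 4) {t : ℝ} (h0 : 0 < t) {n : ℕ} :
    ‖pt ((n : ℤ) • z + ((⌊t * n⌋₊ : ℕ) : ℤ) • dir r) - n * (pt z + t * pt (dir r))‖ ≤ 1 := by
  have e : pt ((n : ℤ) • z + ((⌊t * n⌋₊ : ℕ) : ℤ) • dir r) - n * (pt z + t * pt (dir r)) =
      (((⌊t * n⌋₊ : ℕ) : ℝ) - t * n : ℝ) * pt (dir r) := by
    apply Complex.ext <;> simp [pt] <;> ring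
  rw [e, norm_mul, Complex.norm_real, Real.norm_eq_abs]
  have h1 : |((⌊t * n⌋₊ : ℕ) : ℝ) - t * n| ≤ 1 := by
    have a1 := Nat.floor_le (show 0 ≤ t * n by positivity)
    have a2 := Nat.lt_floor_add_one (t * n)
    rw [abs_le]
    constructor <;> linarith
  exact mul_le_one₀ h1 (norm_nonneg _) (norm_pt_dir r)

theorem bp_eq (S : Dat) : S.bp = pt (S.p ((0 : ℕ) : ZMod S.l)) + S.tp * pt (dir (pdir S.p 0)) := by
  unfold CA.Dat.bp
  have h1 := pdir_step S.poly 0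
  rw [Nat.cast_zero, zero_add, S.step] at h1
  rw [Nat.cast_zero, ← add_left_cancel h1]

/-- **The distance of the base point and the junction on the lattice.** -/
theorem off_kOf (S : Dat) {ia : ℕ} {ta r : ℝ} (hi : ia < S.l) (h0 : 0 < ta) (h1 : ta < 1)
    (hr : 0 < r) (hb : S.bp ∉ ball (jpt S ia ta) r) : ∀ᶠ n : ℕ in atTop,
    r * n / 4 ≤ nm (qN S.p n ⌊S.tp * n⌋₊ 0 -
      qN S.p n ⌊S.tp * n⌋₊ ((kOf S.l n ⌊S.tp * n⌋₊ ia ⌊ta * n⌋₊ : ℕ) : ZMod (S.l * n))) := by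
  have t2 : Tendsto (fun n : ℕ => r * (n : ℝ)) atTop atTop :=
    tendsto_natCast_atTop_atTop.const_mul_atTop hr
  filter_upwards [t2.eventually_ge_atTop 4, eventually_gt_atTop 0] with n h4 hn
  have hn' : (0 : ℝ) < n := by exact_mod_cast hn
  have ht := fl_lt S.tp0 S.tp1 hn
  have e0 : qN S.p n ⌊S.tp * n⌋₊ 0 = (n : ℤ) • S.p ((0 : ℕ) : ZMod S.l) +
      ((⌊S.tp * n⌋₊ : ℕ) : ℤ) • dir (pdir S.p 0) := by
    have h2 := PN_lin (p := S.p) hn (i := 0) ht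
    rw [zero_mul, zero_add] at h2
    rw [← h2]
    unfold qN
    rw [ZMod.val_zero, zero_add]
  rw [e0, qN_kOf hn hi ht (fl_lt h0 h1 hn)]
  set A := (n : ℤ) • S.p ((0 : ℕ) : ZMod S.l) + ((⌊S.tp * n⌋₊ : ℕ) : ℤ) • dir (pdir S.p 0) with hA
  set B := (n : ℤ) • S.p (ia : ZMod S.l) + ((⌊ta * n⌋₊ : ℕ) : ℤ) • dir (pdir S.p ia) with hB
  have hA1 : ‖pt A - n * S.bp‖ ≤ 1 := by
    rw [bp_eq]
    exact pt_near _ _ S.tp0
  have hB1 : ‖pt B - n * jpt S ia ta‖ ≤ 1 := pt_near _ _ h0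
  have h5 : r ≤ ‖S.bp - jpt S ia ta‖ := by
    rw [mem_ball, dist_eq_norm, not_lt] at hb
    exact hb
  have h6 : ‖(n : ℂ) * (S.bp - jpt S ia ta)‖ = n * ‖S.bp - jpt S ia ta‖ := by
    rw [norm_mul, Complex.norm_natCast]
  have h7 : ‖(n : ℂ) * (S.bp - jpt S ia ta)‖ ≤ ‖pt (A - B)‖ + 2 := by
    have e : (n : ℂ) * (S.bp - jpt S ia ta) =
        pt (A - B) - (pt A - n * S.bp) + (pt B - n * jpt S ia ta) := by
      rw [pt_sub]; ring
    rw [e]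
    refine (norm_add_le _ _).trans ?_
    have := norm_sub_le (pt (A - B)) (pt A - n * S.bp)
    linarith
  have h8 := norm_pt_le (A - B)
  have h9 : r * n ≤ n * ‖S.bp - jpt S ia ta‖ := by nlinarith
  linarith

/-- The junction is a wired step, not the step `0`. -/
theorem kOf_pos {l n t i σ : ℕ} (hi : 0 < i) (ht : t < n) : 0 < kOf l n t i σ := by
  have h1 : n ≤ i * n := Nat.le_mul_of_pos_left n hi
  unfold kOf
  split_ifs <;> omega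

end Vale.Agent.P167.H436.ND
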