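import Vale.Agent.P167.H436.ND.Nda7
import Vale.Agent.P167.H825.Q.BdQ

/-!
# P167, general `q`, block Q-ND: the input `NDa` for the Dobrushin and the free functionals of a polygon
-/

namespace Vale.Agent.P167.H436.ND

open Set Metric Filter Topology MeasureTheory Vale.Agent.P167
open Vale.Agent.P167.H825 (pdir)
open Vale.Agent.P167.H825.Q (Bc bdQ tN chordless_qN)
open Vale.Agent.P167.BVP (Flat)
open Vale.Agent.P167.CA (Dat)
open Vale.Agent.P167.QB (gB)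
open Vale.Agent.P167.H411.Q (NDa)
open Vale.Agent.P167.H640.ND (nor)
open Vale.Agent.P167.Enl (kOf kOf_lt)

section

variable (S : Dat) {θ : ℝ} {ia : ℕ} {ta r : ℝ} {L : Filter ℕ} (hL : L ≤ atTop)
  (hc : L.IsCountablyGenerated) (bc : Bc) (hbc : bc.In S.l) (hia : ia < S.l) (h0 : 0 < ta) (h1 : ta < 1)
  (hr : 0 < r) (hF : Flat S.P (jpt S ia ta) (nor (pdir S.p ia)) r)
  (hb : S.bp ∉ ball (jpt S ia ta) r)

include hia h0 h1 hr hF hb in
/-- The lattice point of the junction, any boundary conditions. -/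
theorem jn_bdQ : Jn (bdQ S θ (gB θ) bc hbc L hL hc) (jpt S ia ta) (pdir S.p ia) r
    (fun n => kOf S.l n (tN S n) ia ⌊ta * n⌋₊) where
  flat := hF
  ch := by
    show ∀ᶠ n in L, _
    filter_upwards [hL (eventually_ge_atTop 2)] with n hn
    exact chordless_qN S.poly hn _
  lt := by
    show ∀ᶠ n in L, _
    filter_upwards [hL (eventually_gt_atTop 0)] with n hn
    exact kOf_lt hia (fl_lt h0 h1 hn) (fl_lt S.tp0 S.tp1 hn)
  near := by
    show ∀ᶠ n in L, _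
    filter_upwards [hL (eventually_gt_atTop 0)] with n hn
    exact near_kOf S hia h0 h1 hn (fl_lt S.tp0 S.tp1 hn)
  off := by
    show ∀ᶠ n : ℕ in L, _
    exact hL (off_kOf S hia h0 h1 hr hb)

end

/-- **[Q-ND] (Q4)**: `NDa` for the Dobrushin and the free family of a lattice polygon, junction at the
position `ta` of the side `ia`. -/
theorem nda_bdQ {S : Dat} {θ : ℝ} {P : Measure Cfg} (h0 : 0 < θ) (h1 : θ ≤ Real.pi / 3)
    (hβ : Real.cos (θ / 2 + gB θ) = Real.sin θ) (hj : S_jun θ P) (hf : S_fre θ P)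
    {ia : ℕ} {ta : ℝ} (hin : (Bc.dob ia ta).In S.l) (hfr : Bc.free.In S.l) {L : Filter ℕ}
    (hL : L ≤ atTop) (hc : L.IsCountablyGenerated) {r : ℝ} (hr : 0 < r)
    (hF : Flat S.P (jpt S ia ta) (nor (pdir S.p ia)) r) (hb : S.bp ∉ ball (jpt S ia ta) r) :
    NDa θ ((bdQ S θ (gB θ) (.dob ia ta) hin L hL hc).famB h0 h1 hβ)
      ((bdQ S θ (gB θ) .free hfr L hL hc).famB h0 h1 hβ) (jpt S ia ta) (nor (pdir S.p ia)) := by
  obtain ⟨g1, g2, g3, g4⟩ := hin
  refine nda_of h0 h1 hβ hj hf rfl hr (l := fun n => kOf S.l n (tN S n) ia ⌊ta * n⌋₊)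
    (jn_bdQ S hL hc _ _ g2 g3 g4 hr hF hb) ?_ (jn_bdQ S hL hc _ _ g2 g3 g4 hr hF hb) ?_
  · show ∀ᶠ n in L, _
    filter_upwards [hL (eventually_gt_atTop 0)] with n hn
    exact kOf_pos g1 (fl_lt S.tp0 S.tp1 hn)
  · show ∀ᶠ n in L, _
    exact Eventually.of_forall fun n => rfl

/-- **[Q-ND] (Q4)** for the junction at the boundary point `i + ta`. -/
theorem nda_tip {S : Dat} {θ : ℝ} {P : Measure Cfg} (h0 : 0 < θ) (h1 : θ ≤ Real.pi / 3)
    (hβ : Real.cos (θ / 2 + gB θ) = Real.sin θ) (hj : S_jun θ P) (hf : S_fre θ P)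
    {i : ℕ} {ta : ℝ} (hin : (Bc.dob i ta).In S.l) (hfr : Bc.free.In S.l) {L : Filter ℕ}
    (hL : L ≤ atTop) (hc : L.IsCountablyGenerated) :
    NDa θ ((bdQ S θ (gB θ) (.dob i ta) hin L hL hc).famB h0 h1 hβ)
      ((bdQ S θ (gB θ) .free hfr L hL hc).famB h0 h1 hβ) (H411.Q.bpt S (i + ta))
      (H411.Q.nrm S i) := by
  have hin' := hin
  obtain ⟨g1, g2, g3, g4⟩ := hin'
  obtain ⟨r, hr, hF, hb⟩ := flat_jpt S g1 g2 g3 g4
  rw [nrm_eq, bpt_jpt S i g3.le g4.le]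
  exact nda_bdQ h0 h1 hβ hj hf hin hfr hL hc hr hF hb

end Vale.Agent.P167.H436.ND
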