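import Vale.Agent.P167.H436.ND.Nda5
import Vale.Agent.P167.H411.Q.As1

/-!
# P167, general `q`, block Q-ND: flatness at the junction
-/

namespace Vale.Agent.P167.H436.ND

open Set Metric Filter Topology MeasureTheory Vale.Agent.P167
open Vale.Agent.P167.H825 (pdir)
open Vale.Agent.P167.BVP (Flat)
open Vale.Agent.P167.CA (Dat)
open Vale.Agent.P167.E6 (IsPolygon Encloses dir pt)
open Vale.Agent.P167.H640.ND (nor fin4_cases)
open Vale.Agent.P167.H411.Q (bpt nrm bpt_side flat_bpt bpt_ne bpt_bp)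
open Vale.Agent.P167.Enl (pdir_step)

theorem nor_dir (r : Fin 4) : nor r = Complex.I * pt (dir r) := by
  rcases fin4_cases r with rfl | rfl | rfl | rfl <;>
    (apply Complex.ext <;> simp [nor, pt, dir])

theorem side_eq (S : Dat) (i : ℕ) :
    pt (S.p ((i : ℤ) + 1)) - pt (S.p (i : ℤ)) = pt (dir (pdir S.p i)) := by
  rw [Int.cast_natCast, pdir_step S.poly i, ← pt_sub, add_sub_cancel_left]

theorem nrm_eq (S : Dat) (i : ℕ) : nrm S i = nor (pdir S.p i) := by
  unfold nrm
  rw [side_eq, nor_dir]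

theorem bpt_jpt (S : Dat) (i : ℕ) {t : ℝ} (h0 : 0 ≤ t) (h1 : t ≤ 1) : bpt S (i + t) = jpt S i t := by
  have h := bpt_side S i h0 h1
  rw [side_eq, Int.cast_natCast, Int.cast_natCast] at h
  exact h

/-- **The domain is flat at the junction, away from the base point.** -/
theorem flat_jpt (S : Dat) {i : ℕ} {t : ℝ} (hi0 : 0 < i) (hi : i < S.l) (h0 : 0 < t) (h1 : t < 1) :
    ∃ r > 0, Flat S.P (jpt S i t) (nor (pdir S.p i)) r ∧ S.bp ∉ ball (jpt S i t) r := by
  have hF := flat_bpt S i h0 h1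
  rw [Int.cast_natCast, nrm_eq, bpt_jpt S i h0.le h1.le] at hF
  have hl : (i : ℝ) + 1 ≤ S.l := by exact_mod_cast hi
  have hi' : (1 : ℝ) ≤ i := by exact_mod_cast hi0
  have t0 := S.tp0
  have t1 := S.tp1
  have hne : jpt S i t ≠ S.bp := by
    rw [← bpt_jpt S i h0.le h1.le, ← bpt_bp]
    exact (bpt_ne S (by linarith) (by linarith)).symm
  have hd : 0 < dist (jpt S i t) S.bp := dist_pos.2 hne
  refine ⟨min (min t (1 - t)) (dist (jpt S i t) S.bp), lt_min hF.pos hd, ⟨hF.norm, lt_min hF.pos hd,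
    fun z hz => hF.mem z (ball_subset_ball (min_le_left _ _) hz)⟩, fun h => ?_⟩
  rw [mem_ball, dist_comm] at h
  exact absurd (h.trans_le (min_le_right _ _)) (lt_irrefl _)

end Vale.Agent.P167.H436.ND
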